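import Vale.Agent.P163.Main

/-!
Polynomial decay with an exponent of order `n / β`, uniformly in the volume.
-/

noncomputable section

namespace Vale.Agent.Results.P163.DecayExponentNOverBeta

open Vale.Agent.P163

theorem result : ∃ C c : ℝ, 0 < C ∧ 0 < c ∧ ∀ n : ℕ, 2 ≤ n → ∀ β : ℝ, 0 ≤ β →
    (∀ (Λ : Finset (ℤ × ℤ)) (x y : ↥Λ), x ≠ y →
      |twoPoint n β (boxBonds Λ) x y| ≤ C * n *
        ((max |(x : ℤ × ℤ).1 - (y : ℤ × ℤ).1| |(x : ℤ × ℤ).2 - (y : ℤ × ℤ).2| : ℤ) : ℝ) ^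
          (-(c * n / (n + β)))) ∧
    (∀ (L : ℕ) [NeZero L] (x y : ZMod L × ZMod L), x ≠ y →
      |twoPoint n β (torusBonds L) x y| ≤ C * n *
        (torusDist x y : ℝ) ^ (-(c * n / (n + β)))) := by
  refine ⟨Real.exp 2 / 2, 1 / (320000 * mgfA), by positivity,
    by have := one_le_mgfA; positivity, fun n hn β hβ => ?_⟩
  have : NeZero n := ⟨by omega⟩
  refine ⟨fun Λ x y hxy => ?_, fun L hL x y hxy => ?_⟩
  · have hpos : 0 < max ((x : ℤ × ℤ).1 - (y : ℤ × ℤ).1).natAbs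
        ((x : ℤ × ℤ).2 - (y : ℤ × ℤ).2).natAbs := by
      rcases Nat.eq_zero_or_pos (max ((x : ℤ × ℤ).1 - (y : ℤ × ℤ).1).natAbs
        ((x : ℤ × ℤ).2 - (y : ℤ × ℤ).2).natAbs) with h | h
      · exact absurd (Subtype.ext (Prod.ext (by omega) (by omega))) hxy
      · exact h
    have h := twoPoint_decay hn hβ (geo_box Λ y) x y (by simp) hpos
    have e : (((max ((x : ℤ × ℤ).1 - (y : ℤ × ℤ).1).natAbs
        ((x : ℤ × ℤ).2 - (y : ℤ × ℤ).2).natAbs : ℕ) : ℤ)) =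
        max |(x : ℤ × ℤ).1 - (y : ℤ × ℤ).1| |(x : ℤ × ℤ).2 - (y : ℤ × ℤ).2| := by
      push_cast
      rfl
    rw [← e, Int.cast_natCast]
    exact h
  · have hpos : 0 < torusDist x y := by
      rcases Nat.eq_zero_or_pos (torusDist x y) with h | h
      · simp only [torusDist, Nat.max_eq_zero_iff, Int.natAbs_eq_zero, ZMod.valMinAbs_eq_zero,
          sub_eq_zero] at h
        exact absurd (Prod.ext h.1 h.2) hxy
      · exact h
    exact twoPoint_decay hn hβ (geo_torus L y) x y (by simp [torusDist]) hpos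

end Vale.Agent.Results.P163.DecayExponentNOverBeta
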