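import Vale.Agent.P163.Helicity.Twisted

/-!
The twist free energy vanishes at every temperature for `n ≥ 3`.
-/

noncomputable section

namespace Vale.Agent.Results.P163.TwistInsensitivity

open Vale.Agent.P163.Helicity

theorem result : ∃ C : ℝ, 0 < C ∧ ∀ (n : ℕ), 3 ≤ n → ∀ β : ℝ, 0 ≤ β →
    ∀ (Lx Ly : ℕ) [NeZero Lx] [NeZero Ly], 2 ≤ Lx → 2 ≤ Ly → ∀ i j : Fin n, i ≠ j → ∀ θ : ℝ,
      0 < twistZ n β Lx Ly i j θ ∧ twistZ n β Lx Ly i j θ ≤ twistZ n β Lx Ly i j 0 ∧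
        1 - twistZ n β Lx Ly i j θ / twistZ n β Lx Ly i j 0 ≤
          C * (β + β ^ 2) * θ ^ 2 * ((Ly : ℝ) / Lx) / Real.log (min (Lx : ℝ) Ly) :=
  twist_insensitive

end Vale.Agent.Results.P163.TwistInsensitivity
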