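import Mathlib

/-!
The `O(n)` spin model on a finite graph.
-/

noncomputable section

namespace Vale.Agent.P163

open MeasureTheory Metric
open scoped RealInnerProductSpace

/-- Euclidean space of dimension `n`. -/
abbrev Euc (n : ℕ) : Type := EuclideanSpace ℝ (Fin n)

/-- The unit sphere in dimension `n`. -/
abbrev Spin (n : ℕ) : Type := sphere (0 : Euc n) 1

/-- The normalised uniform measure on the sphere. -/
def sphereUnif (n : ℕ) : Measure (Spin n) :=
  ((volume : Measure (Euc n)).toSphere Set.univ)⁻¹ • (volume : Measure (Euc n)).toSphere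

/-- The product of the uniform measures. -/
def freeLaw (V : Type*) [Fintype V] (n : ℕ) : Measure (V → Spin n) :=
  Measure.pi fun _ : V => sphereUnif n

/-- `∑ σ_x · σ_y` over the bonds. -/
def bondSum {V : Type*} {n : ℕ} (E : Finset (V × V)) (σ : V → Spin n) : ℝ :=
  ∑ b ∈ E, ⟪(σ b.1 : Euc n), (σ b.2 : Euc n)⟫

/-- The two-point function of the `O(n)` model with bonds `E` at inverse temperature `β`. -/
def twoPoint {V : Type*} [Fintype V] (n : ℕ) (β : ℝ) (E : Finset (V × V)) (x y : V) : ℝ :=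
  (∫ σ, ⟪(σ x : Euc n), (σ y : Euc n)⟫ * Real.exp (β * bondSum E σ) ∂freeLaw V n) /
    ∫ σ, Real.exp (β * bondSum E σ) ∂freeLaw V n

/-- The nearest-neighbour bonds of a finite subset of `ℤ²`, each once. -/
def boxBonds (Λ : Finset (ℤ × ℤ)) : Finset (↥Λ × ↥Λ) :=
  Finset.univ.filter fun b =>
    (b.2 : ℤ × ℤ) = (b.1 : ℤ × ℤ) + (1, 0) ∨ (b.2 : ℤ × ℤ) = (b.1 : ℤ × ℤ) + (0, 1)

/-- The nearest-neighbour bonds of the torus `(ℤ/L)²`, each once. -/
def torusBonds (L : ℕ) [NeZero L] : Finset ((ZMod L × ZMod L) × (ZMod L × ZMod L)) :=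
  Finset.univ.filter fun b => b.2 = b.1 + (1, 0) ∨ b.2 = b.1 + (0, 1)

/-- The maximum-norm distance on the torus. -/
def torusDist {L : ℕ} (x y : ZMod L × ZMod L) : ℕ :=
  max (x.1 - y.1).valMinAbs.natAbs (x.2 - y.2).valMinAbs.natAbs

end Vale.Agent.P163
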