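import Vale.Agent.P163.Windows

/-!
Decay of the two-point function with an exponent of order `n / β`.
-/

noncomputable section

namespace Vale.Agent.P163

open MeasureTheory Metric
open scoped RealInnerProductSpace

variable {V : Type*} {n : ℕ}

/-- The coefficient vector of the sum of all the windows. -/
def allWin (d : V → ℕ) (g : ℝ) (M L m : ℕ) (x : V) : ℝ :=
  ∑ k ∈ Finset.range m, g * win d M L k x

theorem win_unique {E : Finset (V × V)} {d : V → ℕ} (hG : Geo E d) {M L m i j : ℕ} (hL : 1 ≤ L)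
    (hm : 2 * L * m ≤ M) (him : i < m) (hjm : j < m) {b : V × V} (hb : b ∈ E)
    (hi : win d M L i b.1 ≠ win d M L i b.2) (hj : win d M L j b.1 ≠ win d M L j b.2) : i = j := by
  obtain ⟨⟨i1, i2⟩, -⟩ := prof_band hG hb hi
  obtain ⟨⟨j1, j2⟩, -⟩ := prof_band hG hb hj
  have key : ∀ p q : ℕ, p < q → q < m → 2 ^ (top M L p - L) ≤ d b.1 →
      d b.1 ≤ 2 ^ (top M L q - L + L) → False := by
    intro p q hpq hqm h1 h2
    have e1 : 2 * L * (p + 1) ≤ 2 * L * q := Nat.mul_le_mul_left _ hpq
    have e2 : 2 * L * (q + 1) ≤ 2 * L * m := Nat.mul_le_mul_left _ hqm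
    have e3 : 2 * L * (p + 1) = 2 * L * p + 2 * L := by ring
    have e4 : 2 * L * (q + 1) = 2 * L * q + 2 * L := by ring
    have : top M L q - L + L < top M L p - L := by simp only [top]; omega
    have := Nat.pow_lt_pow_right one_lt_two this
    omega
  rcases lt_trichotomy i j with h | h | h
  · exact (key i j h hjm i1 j2).elim
  · exact h
  · exact (key j i h him j1 i2).elim

variable [Fintype V] [DecidableEq V]

/-- Decay of the planar part of the two-point function through `m` windows. -/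
theorem inPart_decay [NeZero n] (hn : 2 ≤ n) {β : ℝ} (hβ : 0 ≤ β) {E : Finset (V × V)} {d : V → ℕ}
    (hG : Geo E d) (P : Plane n) {M L m : ℕ} (hL : 80000 * β / n < L) (hm : 2 * L * m ≤ M)
    (x y : V) (hy : d y = 0) (hx : 2 ^ M ≤ d x) :
    |Ex β E (fun σ : V → Spin n => P.inPart (σ x) (σ y))| ≤
      Real.exp (-(m : ℝ) / (2 * mgfA)) * Ex (n := n) β E fun _ => 1 := by
  have hn' : (0 : ℝ) < n := by exact_mod_cast (by omega : 0 < n)
  have hL1 : 1 ≤ L := by
    have : (0 : ℝ) < L := lt_of_le_of_lt (by positivity) hL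
    exact_mod_cast this
  have hA := one_le_mgfA
  set g : ℝ := mgfA⁻¹ with hgdef
  have hg0 : 0 < g := inv_pos.2 (by linarith)
  have hg1 : g ≤ 1 := inv_le_one_of_one_le₀ hA
  have hg2 : g ^ 2 ≤ 1 := by nlinarith
  set Φ : V → ℝ := allWin d g M L m with hΦ
  have hdiff : ∀ b : V × V, Φ b.1 - Φ b.2 =
      ∑ k ∈ Finset.range m, (g * win d M L k b.1 - g * win d M L k b.2) := fun b => by
    simp only [hΦ, allWin, Finset.sum_sub_distrib]
  have huniq : ∀ b ∈ E, ∀ i ∈ Finset.range m, ∀ j ∈ Finset.range m,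
      g * win d M L i b.1 - g * win d M L i b.2 ≠ 0 →
      g * win d M L j b.1 - g * win d M L j b.2 ≠ 0 → i = j := by
    intro b hb i hi j hj h1 h2
    exact win_unique hG hL1 hm (Finset.mem_range.1 hi) (Finset.mem_range.1 hj) hb
      (fun h => h1 (by rw [h, sub_self])) (fun h => h2 (by rw [h, sub_self]))
  have hsmall : ∀ b ∈ E, |Φ b.1 - Φ b.2| ≤ 1 := by
    intro b hb
    rw [hdiff]
    by_cases hz : ∃ i ∈ Finset.range m, g * win d M L i b.1 - g * win d M L i b.2 ≠ 0
    · obtain ⟨i, hi, hi0⟩ := hz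
      rw [Finset.sum_eq_single_of_mem i hi fun j hj hji => by
        by_contra h0; exact hji (huniq b hb j hj i hi h0 hi0), ← mul_sub, abs_mul,
        abs_of_pos hg0]
      exact mul_le_one₀ hg1 (abs_nonneg _) (abs_prof_sub hG hb)
    · push Not at hz
      simp [Finset.sum_eq_zero hz]
  have hnode : ∀ v, nodeW E Φ v =
      ∑ k ∈ Finset.range m, nodeW E (fun z => g * win d M L k z) v := by
    intro v
    simp only [nodeW]
    rw [Finset.sum_comm]
    refine Finset.sum_congr rfl fun b hb => ?_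
    rw [hdiff, sq_sum_single _ _ (huniq b hb), Finset.sum_mul]
  have hexp : ∀ σ : V → Spin n,
      β / 2 * ∑ v, nodeW E Φ v * P.proj (σ v) = wexp β g E d P M L m σ := by
    intro σ
    simp only [wexp, hnode, Finset.sum_mul]
    rw [Finset.sum_comm]
  have htop : ∀ k ∈ Finset.range m, 2 * L ≤ top M L k ∧ top M L k ≤ M := by
    intro k hk
    have e1 : 2 * L * (k + 1) ≤ 2 * L * m := Nat.mul_le_mul_left _ (Finset.mem_range.1 hk)
    have e2 : 2 * L * (k + 1) = 2 * L * k + 2 * L := by ring
    simp only [top]; omega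
  have hΦx : Φ x = 0 := by
    refine Finset.sum_eq_zero fun k hk => ?_
    rw [win, prof_zero ((Nat.pow_le_pow_right two_pos (by
      have := htop k hk; omega)).trans hx), mul_zero]
  have hΦy : Φ y = g * m := by
    simp only [hΦ, allWin]
    rw [Finset.sum_congr rfl fun k _ => by
      rw [win, prof_one hL1 (by rw [hy]; exact Nat.zero_le _), mul_one]]
    simp [mul_comm]
  have h := shift_bound hβ E P Φ x y hsmall
  simp only [hexp, hΦx, hΦy, zero_sub] at h
  refine h.trans ((mul_le_mul_of_nonneg_left (windows_cost hn hβ hg2 hG P hL m hm).2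
    (Real.exp_pos _).le).trans (le_of_eq ?_))
  rw [← mul_assoc, ← Real.exp_add]
  congr 2
  have : mgfA ≠ 0 := by linarith
  rw [hgdef]
  field_simp
  ring

/-- By rotation invariance every direction contributes equally. -/
theorem Ex_dir [NeZero n] (hn : 2 ≤ n) (β : ℝ) (E : Finset (V × V)) (x y : V) (e u : Euc n)
    (he : ⟪e, e⟫ = 1) (hu : ⟪u, u⟫ = 1) :
    Ex β E (fun σ : V → Spin n => ⟪e, (σ x : Euc n)⟫ * ⟪e, (σ y : Euc n)⟫) =
      Ex β E (fun σ : V → Spin n => ⟪u, (σ x : Euc n)⟫ * ⟪u, (σ y : Euc n)⟫) := by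
  obtain ⟨P, θ, -, -, hrot⟩ := exists_plane hn e u he hu
  have hi : ∀ v : Euc n, ⟪e, P.rotFun (-θ) v⟫ = ⟪u, v⟫ := fun v => by
    rw [← P.inner_rot_rot θ, hrot, P.rot_rot, add_neg_cancel, P.rot_zero]
  simp only [Ex]
  rw [← integral_rotF P (fun _ => -θ) (by fun_prop)]
  refine integral_congr_ae (Filter.Eventually.of_forall fun σ => ?_)
  simp only [bondSum, rotF_coe, hi, P.inner_rot_rot]

/-- The two-point function as a multiple of its planar part. -/
theorem Ex_inner [NeZero n] (hn : 2 ≤ n) (β : ℝ) (E : Finset (V × V)) (P : Plane n) (x y : V) :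
    Ex β E (fun σ : V → Spin n => ⟪(σ x : Euc n), (σ y : Euc n)⟫) =
      (n : ℝ) / 2 * Ex β E (fun σ : V → Spin n => P.inPart (σ x) (σ y)) := by
  set J := Ex β E (fun σ : V → Spin n => ⟪P.e, (σ x : Euc n)⟫ * ⟪P.e, (σ y : Euc n)⟫) with hJ
  have h1 : Ex β E (fun σ : V → Spin n => P.inPart (σ x) (σ y)) = 2 * J := by
    have hs := Ex_sum (β := β) (E := E) (Finset.univ : Finset Bool)
      (F := fun q (σ : V → Spin n) => ⟪cond q P.e P.f, (σ x : Euc n)⟫ *
        ⟪cond q P.e P.f, (σ y : Euc n)⟫) (fun q _ => by fun_prop)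
    simp only [Fintype.sum_bool, cond_true, cond_false] at hs
    rw [show (fun σ : V → Spin n => P.inPart (σ x) (σ y)) = _ from rfl]
    refine hs.trans ?_
    rw [← hJ, ← Ex_dir hn β E x y P.e P.f P.he P.hf, ← hJ]
    ring
  have h2 : Ex β E (fun σ : V → Spin n => ⟪(σ x : Euc n), (σ y : Euc n)⟫) = n * J := by
    have hi : (fun σ : V → Spin n => ⟪(σ x : Euc n), (σ y : Euc n)⟫) = fun σ : V → Spin n =>
        ∑ i : Fin n, ⟪EuclideanSpace.single i (1 : ℝ), (σ x : Euc n)⟫ *
          ⟪EuclideanSpace.single i (1 : ℝ), (σ y : Euc n)⟫ := by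
      funext σ
      simp [PiLp.inner_apply, EuclideanSpace.inner_single_left, mul_comm]
    rw [hi, Ex_sum _ fun i _ => by fun_prop]
    rw [Finset.sum_congr rfl fun i _ => Ex_dir hn β E x y _ P.e (by simp) P.he]
    simp [← hJ]
  rw [h1, h2]; ring

/-- The polynomial bound on any graph with quadratic growth. -/
theorem twoPoint_decay [NeZero n] (hn : 2 ≤ n) {β : ℝ} (hβ : 0 ≤ β) {E : Finset (V × V)}
    {d : V → ℕ} (hG : Geo E d) (x y : V) (hy : d y = 0) (hx : 0 < d x) :
    |twoPoint n β E x y| ≤ Real.exp 2 / 2 * n *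
      (d x : ℝ) ^ (-(1 / (320000 * mgfA) * n / (n + β))) := by
  have hn' : (0 : ℝ) < n := by exact_mod_cast (by omega : 0 < n)
  have hA := one_le_mgfA
  have he : ⟪(EuclideanSpace.single ⟨0, by omega⟩ (1 : ℝ) : Euc n),
      EuclideanSpace.single ⟨0, by omega⟩ (1 : ℝ)⟫ = 1 := by simp
  obtain ⟨P, -, -, -, -⟩ := exists_plane hn _ _ he he
  set L : ℕ := ⌊80000 * β / n⌋₊ + 1 with hLdef
  have hL : 80000 * β / n < L := by push_cast [hLdef]; exact Nat.lt_floor_add_one _
  have hL' : (L : ℝ) ≤ 80000 * ((n : ℝ) + β) / n := by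
    have := Nat.floor_le (show 0 ≤ 80000 * β / n by positivity)
    push_cast [hLdef]
    rw [le_div_iff₀ hn']
    rw [le_div_iff₀ hn'] at this
    nlinarith
  set M := Nat.log 2 (d x) with hMdef
  set m := M / (2 * L) with hmdef
  have hm : 2 * L * m ≤ M := Nat.mul_div_le M (2 * L)
  have hx2 : 2 ^ M ≤ d x := Nat.pow_log_le_self 2 hx.ne'
  have hdec := inPart_decay hn hβ hG P hL hm x y hy hx2
  have hZ := Ex_one_pos (n := n) β E
  have htp : twoPoint n β E x y =
      (n : ℝ) / 2 * Ex β E (fun σ : V → Spin n => P.inPart (σ x) (σ y)) /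
        Ex (n := n) β E fun _ => 1 := by
    rw [← Ex_inner hn β E P x y]
    simp only [twoPoint, Ex, one_mul]
  rw [htp, abs_div, abs_mul, abs_of_pos hZ, abs_of_pos (show (0 : ℝ) < n / 2 by positivity),
    div_le_iff₀ hZ]
  refine (mul_le_mul_of_nonneg_left hdec (by positivity)).trans ?_
  rw [← mul_assoc]
  refine mul_le_mul_of_nonneg_right ?_ hZ.le
  set κ : ℝ := 1 / (320000 * mgfA) * n / (n + β) with hκ
  have hd : (0 : ℝ) < d x := by exact_mod_cast hx
  have hlog : Real.log (d x) ≤ (M : ℝ) + 1 := by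
    have h1 : d x < 2 ^ (M + 1) := Nat.lt_pow_succ_log_self one_lt_two _
    have h1' : (d x : ℝ) ≤ (2 : ℝ) ^ (M + 1) := by exact_mod_cast h1.le
    have h2 := Real.log_le_log hd h1'
    rw [Real.log_pow] at h2
    push_cast at h2
    nlinarith [Real.log_two_lt_d9, (Nat.cast_nonneg M : (0 : ℝ) ≤ M)]
  have hmlow : (M : ℝ) ≤ 2 * L * (m + 1) := by
    have h3 : M ≤ 2 * L * (m + 1) := (Nat.lt_mul_div_succ M (by omega)).le
    exact_mod_cast h3
  have hkey : -(m : ℝ) / (2 * mgfA) ≤ 2 + Real.log (d x) * (-κ) := by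
    have h4 : (M : ℝ) * n ≤ 160000 * ((n : ℝ) + β) * (m + 1) := by
      rw [le_div_iff₀ hn'] at hL'
      have := mul_le_mul_of_nonneg_right hL' (show (0 : ℝ) ≤ 2 * ((m : ℝ) + 1) by positivity)
      nlinarith [mul_le_mul_of_nonneg_right hmlow hn'.le]
    have hk0 : 0 ≤ κ := by positivity
    have hk1 : κ ≤ 1 := by
      rw [hκ, div_le_one (by positivity)]
      refine le_trans (mul_le_of_le_one_left hn'.le ?_) (by linarith)
      rw [div_le_one (by positivity)]; linarith
    have h5 : κ * M ≤ ((m : ℝ) + 1) / (2 * mgfA) := by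
      rw [hκ]
      field_simp
      nlinarith
    have h6 : (1 : ℝ) / (2 * mgfA) ≤ 1 := by rw [div_le_one (by positivity)]; linarith
    rw [add_div] at h5
    have h7 := mul_le_mul_of_nonneg_left hlog hk0
    rw [neg_div]
    linarith
  rw [Real.rpow_def_of_pos hd]
  calc (n : ℝ) / 2 * Real.exp (-(m : ℝ) / (2 * mgfA))
      ≤ (n : ℝ) / 2 * Real.exp (2 + Real.log (d x) * (-κ)) :=
        mul_le_mul_of_nonneg_left (Real.exp_le_exp.2 hkey) (by positivity)
    _ = _ := by rw [Real.exp_add]; ring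

/-- The maximum-norm distance to `y` gives the geometry of a finite subset of `ℤ²`. -/
theorem geo_box (Λ : Finset (ℤ × ℤ)) (y : ↥Λ) :
    Geo (boxBonds Λ) fun v : ↥Λ =>
      max ((v : ℤ × ℤ).1 - (y : ℤ × ℤ).1).natAbs ((v : ℤ × ℤ).2 - (y : ℤ × ℤ).2).natAbs := by
  constructor
  · intro b hb
    simp only [boxBonds, Finset.mem_filter, Finset.mem_univ, true_and, Prod.ext_iff,
      Prod.fst_add, Prod.snd_add] at hb
    omega
  · intro R hR
    let tgt : Finset ((ℤ × ℤ) × (ℤ × ℤ)) :=
      (Finset.Icc (-(R : ℤ)) R ×ˢ Finset.Icc (-(R : ℤ)) R) ×ˢ {((1, 0) : ℤ × ℤ), (0, 1)}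
    calc ((boxBonds Λ).filter fun b => _ ≤ R).card
        ≤ tgt.card := by
          refine Finset.card_le_card_of_injOn
            (fun b => ((b.1 : ℤ × ℤ) - y, (b.2 : ℤ × ℤ) - b.1)) ?_ ?_
          · intro b hb
            simp only [Finset.mem_coe, boxBonds, Finset.mem_filter, Finset.mem_univ, true_and]
              at hb
            simp only [Finset.mem_coe, tgt, Finset.mem_product, Finset.mem_Icc, Finset.mem_insert,
              Finset.mem_singleton, Prod.fst_sub, Prod.snd_sub]
            refine ⟨⟨⟨?_, ?_⟩, ?_, ?_⟩, ?_⟩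
            iterate 4 omega
            rcases hb.1 with h | h
            · left; rw [h]; abel
            · right; rw [h]; abel
          · intro a _ b _ hab
            simp only [Prod.mk.injEq] at hab
            have h1 : (a.1 : ℤ × ℤ) = b.1 := sub_left_injective hab.1
            have h2 : (a.2 : ℤ × ℤ) = b.2 := by
              have := hab.2; rw [h1] at this; exact sub_left_injective this
            exact Prod.ext (Subtype.ext h1) (Subtype.ext h2)
      _ ≤ 18 * R ^ 2 := by
          simp only [tgt, Finset.card_product, Int.card_Icc]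
          rw [show ((R : ℤ) + 1 - -(R : ℤ)).toNat = 2 * R + 1 by omega]
          refine le_trans (Nat.mul_le_mul_left _ Finset.card_le_two) ?_
          nlinarith

theorem valMinAbs_succ {L : ℕ} [NeZero L] (a : ZMod L) :
    (a + 1).valMinAbs.natAbs ≤ a.valMinAbs.natAbs + 1 ∧
      a.valMinAbs.natAbs ≤ (a + 1).valMinAbs.natAbs + 1 := by
  have h1 : (1 : ZMod L).valMinAbs.natAbs ≤ 1 := by
    rw [ZMod.valMinAbs_natAbs_eq_min]
    exact (min_le_left _ _).trans (by rw [ZMod.val_one_eq_one_mod]; exact Nat.mod_le _ _)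
  constructor
  · exact (ZMod.natAbs_valMinAbs_add_le a 1).trans
      ((Int.natAbs_add_le _ _).trans (Nat.add_le_add_left h1 _))
  · have := (ZMod.natAbs_valMinAbs_add_le (a + 1) (-1)).trans (Int.natAbs_add_le _ _)
    rw [add_neg_cancel_right, ZMod.natAbs_valMinAbs_neg] at this
    omega

/-- The torus distance to `y` gives the geometry of the torus. -/
theorem geo_torus (L : ℕ) [NeZero L] (y : ZMod L × ZMod L) :
    Geo (torusBonds L) fun v => torusDist v y := by
  constructor
  · intro b hb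
    simp only [torusBonds, Finset.mem_filter, Finset.mem_univ, true_and] at hb
    rcases hb with h | h <;> simp only [torusDist, h, Prod.fst_add, Prod.snd_add, add_zero,
      add_sub_right_comm]
    · have := valMinAbs_succ (b.1.1 - y.1); omega
    · have := valMinAbs_succ (b.1.2 - y.2); omega
  · intro R hR
    let tgt : Finset ((ℤ × ℤ) × (ZMod L × ZMod L)) :=
      (Finset.Icc (-(R : ℤ)) R ×ˢ Finset.Icc (-(R : ℤ)) R) ×ˢ
        {((1, 0) : ZMod L × ZMod L), (0, 1)}
    calc ((torusBonds L).filter fun b => _ ≤ R).card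
        ≤ tgt.card := by
          refine Finset.card_le_card_of_injOn
            (fun b => (((b.1.1 - y.1).valMinAbs, (b.1.2 - y.2).valMinAbs), b.2 - b.1)) ?_ ?_
          · intro b hb
            have hb0 := Finset.mem_filter.1 (Finset.mem_coe.1 hb)
            simp only [torusBonds, Finset.mem_filter, Finset.mem_univ, true_and] at hb0
            obtain ⟨hb1, hb2 : torusDist b.1 y ≤ R⟩ := hb0
            simp only [Finset.mem_coe, tgt, Finset.mem_product, Finset.mem_Icc, Finset.mem_insert,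
              Finset.mem_singleton]
            refine ⟨⟨⟨?_, ?_⟩, ?_, ?_⟩, ?_⟩
            iterate 4 (simp only [torusDist] at hb2; omega)
            rcases hb1 with h | h
            · left; rw [h]; abel
            · right; rw [h]; abel
          · intro a _ b _ hab
            simp only [Prod.mk.injEq] at hab
            have h1 : a.1 = b.1 := Prod.ext (sub_left_injective (ZMod.valMinAbs_inj.1 hab.1.1))
              (sub_left_injective (ZMod.valMinAbs_inj.1 hab.1.2))
            exact Prod.ext h1 (by have := hab.2; rw [h1] at this; exact sub_left_injective this)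
      _ ≤ 18 * R ^ 2 := by
          simp only [tgt, Finset.card_product, Int.card_Icc]
          rw [show ((R : ℤ) + 1 - -(R : ℤ)).toNat = 2 * R + 1 by omega]
          refine le_trans (Nat.mul_le_mul_left _ Finset.card_le_two) ?_
          nlinarith

end Vale.Agent.P163
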