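import Vale.Agent.P163.Sphere

/-!
Rotation fields, the rotation step and the convexity step.
-/

noncomputable section

namespace Vale.Agent.P163

open MeasureTheory Metric
open scoped RealInnerProductSpace

variable {n : ℕ} {V : Type*} [Fintype V]

instance isProbFreeLaw [NeZero n] : IsProbabilityMeasure (freeLaw V n) := by
  unfold freeLaw; infer_instance

/-- Continuous functions are integrable. -/
theorem integ [NeZero n] {E : Type*} [NormedAddCommGroup E] [SecondCountableTopologyEither (V → Spin n) E]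
    {F : (V → Spin n) → E} (hF : Continuous F) : Integrable F (freeLaw V n) := by
  obtain ⟨C, hC⟩ := isCompact_univ.exists_bound_of_continuousOn hF.continuousOn
  exact Integrable.of_bound hF.aestronglyMeasurable C
    (Filter.Eventually.of_forall fun σ => hC σ (Set.mem_univ σ))

/-- Unnormalised expectation. -/
def Ex (β : ℝ) (E : Finset (V × V)) (F : (V → Spin n) → ℝ) : ℝ :=
  ∫ σ, F σ * Real.exp (β * bondSum E σ) ∂freeLaw V n

@[fun_prop]
theorem continuous_spin (x : V) : Continuous fun σ : V → Spin n => (σ x : Euc n) :=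
  continuous_subtype_val.comp (continuous_apply x)

@[fun_prop]
theorem continuous_bondSum (E : Finset (V × V)) : Continuous (bondSum (n := n) E) := by
  unfold bondSum; fun_prop

theorem Ex_mono [NeZero n] {β : ℝ} {E : Finset (V × V)} {F G : (V → Spin n) → ℝ}
    (hF : Continuous F) (hG : Continuous G) (h : ∀ σ, F σ ≤ G σ) : Ex β E F ≤ Ex β E G :=
  integral_mono (integ (by fun_prop)) (integ (by fun_prop)) fun σ =>
    mul_le_mul_of_nonneg_right (h σ) (Real.exp_pos _).le

theorem Ex_nonneg {β : ℝ} {E : Finset (V × V)} {F : (V → Spin n) → ℝ} (h : ∀ σ, 0 ≤ F σ) :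
    0 ≤ Ex β E F :=
  integral_nonneg fun σ => mul_nonneg (h σ) (Real.exp_pos _).le

theorem Ex_const_mul (β : ℝ) (E : Finset (V × V)) (c : ℝ) (F : (V → Spin n) → ℝ) :
    Ex β E (fun σ => c * F σ) = c * Ex β E F := by
  simp only [Ex, mul_assoc, integral_const_mul]

theorem Ex_sum [NeZero n] {α : Type*} (s : Finset α) {β : ℝ} {E : Finset (V × V)}
    {F : α → (V → Spin n) → ℝ} (hF : ∀ a ∈ s, Continuous (F a)) :
    Ex β E (fun σ => ∑ a ∈ s, F a σ) = ∑ a ∈ s, Ex β E (F a) := by
  simp only [Ex, Finset.sum_mul]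
  exact integral_finsetSum _ fun a ha => integ ((hF a ha).mul (by fun_prop))

theorem Ex_one_pos [NeZero n] (β : ℝ) (E : Finset (V × V)) :
    0 < Ex (n := n) β E fun _ => 1 := by
  simp only [Ex, one_mul]
  exact integral_exp_pos (integ (by fun_prop))

/-- Rotating the spin at `x` by the angle `φ x`. -/
def rotF (P : Plane n) (φ : V → ℝ) (σ : V → Spin n) : V → Spin n :=
  fun x => sphereMap (P.rot (φ x)) (σ x)

theorem rotF_coe (P : Plane n) (φ : V → ℝ) (σ : V → Spin n) (x : V) :
    (rotF P φ σ x : Euc n) = P.rotFun (φ x) (σ x) := rfl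

@[fun_prop]
theorem continuous_rotF (P : Plane n) (φ : V → ℝ) : Continuous (rotF (V := V) P φ) :=
  continuous_pi fun x => (continuous_sphereMap _).comp (continuous_apply x)

theorem integral_rotF [NeZero n] {E : Type*} [NormedAddCommGroup E] [NormedSpace ℝ E]
    [SecondCountableTopologyEither (V → Spin n) E]
    (P : Plane n) (φ : V → ℝ) {F : (V → Spin n) → E} (hF : Continuous F) :
    ∫ σ, F (rotF P φ σ) ∂freeLaw V n = ∫ σ, F σ ∂freeLaw V n := by
  have h : (freeLaw V n).map (rotF P φ) = freeLaw V n := by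
    refine (measurePreserving_pi _ _ fun x => ?_).map_eq
    exact ⟨(continuous_sphereMap _).measurable, map_sphereUnif _⟩
  conv_rhs => rw [← h]
  rw [integral_map (continuous_rotF P φ).aemeasurable hF.aestronglyMeasurable]

theorem bondSum_rotF (P : Plane n) (φ : V → ℝ) (E : Finset (V × V)) (σ : V → Spin n) :
    bondSum E (rotF P φ σ) = ∑ b ∈ E, (P.perp (σ b.1) (σ b.2) +
      Real.cos (φ b.1 - φ b.2) * P.inPart (σ b.1) (σ b.2) +
      Real.sin (φ b.1 - φ b.2) * P.cross (σ b.1) (σ b.2)) := by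
  simp only [bondSum, rotF_coe, Plane.inner_rot_two]

theorem bondSum_plane (P : Plane n) (E : Finset (V × V)) (σ : V → Spin n) :
    bondSum E σ = ∑ b ∈ E, (P.perp (σ b.1) (σ b.2) + P.inPart (σ b.1) (σ b.2)) := by
  refine Finset.sum_congr rfl fun b _ => ?_
  simp only [Plane.perp, Plane.inPart]; ring

variable [DecidableEq V]

/-- The squared increments of `φ` at the bonds of `x`. -/
def nodeW (E : Finset (V × V)) (φ : V → ℝ) (x : V) : ℝ :=
  ∑ b ∈ E, (φ b.1 - φ b.2) ^ 2 * ((if b.1 = x then 1 else 0) + if b.2 = x then 1 else 0)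

theorem nodeW_nonneg (E : Finset (V × V)) (φ : V → ℝ) (x : V) : 0 ≤ nodeW E φ x :=
  Finset.sum_nonneg fun b _ => mul_nonneg (sq_nonneg _) (by positivity)

theorem sum_nodeW_mul (E : Finset (V × V)) (φ : V → ℝ) (q : V → ℝ) :
    ∑ x, nodeW E φ x * q x = ∑ b ∈ E, (φ b.1 - φ b.2) ^ 2 * (q b.1 + q b.2) := by
  simp only [nodeW, Finset.sum_mul]
  rw [Finset.sum_comm]
  refine Finset.sum_congr rfl fun b _ => ?_
  simp only [mul_assoc, add_mul, ite_mul, one_mul, zero_mul, ← Finset.mul_sum,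
    Finset.sum_add_distrib, Finset.sum_ite_eq, Finset.mem_univ, if_true]

theorem sum_nodeW (E : Finset (V × V)) (φ : V → ℝ) :
    ∑ x, nodeW E φ x = 2 * ∑ b ∈ E, (φ b.1 - φ b.2) ^ 2 := by
  have := sum_nodeW_mul E φ fun _ => 1
  simp only [mul_one] at this
  rw [this, Finset.mul_sum]
  exact Finset.sum_congr rfl fun b _ => by ring

/-- The second difference of the rotated energy is at most the weighted planar mass. -/
theorem energy_diff_le (P : Plane n) (φ : V → ℝ) (E : Finset (V × V)) (σ : V → Spin n) :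
    2 * bondSum E (rotF P φ σ) - bondSum E σ ≤
      bondSum E (rotF P (fun x => 2 * φ x) σ) +
        (1 / 2) * ∑ x, nodeW E φ x * P.proj (σ x) := by
  rw [sum_nodeW_mul, bondSum_rotF, bondSum_rotF, bondSum_plane P E σ, Finset.mul_sum,
    Finset.mul_sum, ← Finset.sum_sub_distrib, ← Finset.sum_add_distrib]
  refine Finset.sum_le_sum fun b _ => ?_
  set a := φ b.1 - φ b.2
  rw [show 2 * φ b.1 - 2 * φ b.2 = 2 * a by simp only [a]; ring, Real.cos_two_mul,
    Real.sin_two_mul]
  have hab := P.abs_comb_le (Real.cos a) (Real.sin a) (Real.cos_sq_add_sin_sq a).le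
    (σ b.1) (σ b.2)
  have h1 : 0 ≤ 1 - Real.cos a := by linarith [Real.cos_le_one a]
  have h2 : 1 - Real.cos a ≤ a ^ 2 / 2 := by linarith [Real.one_sub_sq_div_two_le_cos (x := a)]
  set A := P.inPart (σ b.1) (σ b.2)
  set B := P.cross (σ b.1) (σ b.2)
  set S := (P.proj (σ b.1) + P.proj (σ b.2)) / 2 with hS
  have hS0 : 0 ≤ S := le_trans (abs_nonneg _) hab
  have h3 : 2 * (1 - Real.cos a) * (Real.cos a * A + Real.sin a * B) ≤ a ^ 2 * S := by
    calc _ ≤ 2 * (1 - Real.cos a) * S :=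
          mul_le_mul_of_nonneg_left ((le_abs_self _).trans hab) (by positivity)
      _ ≤ 2 * (a ^ 2 / 2) * S := by gcongr
      _ = _ := by ring
  rw [hS] at h3
  linarith

/-- The rotation step. -/
theorem rot_step [NeZero n] {β : ℝ} (hβ : 0 ≤ β) {E : Finset (V × V)} (P : Plane n) (φ : V → ℝ)
    {h f : (V → Spin n) → ℝ} (hh : Continuous h) (hf : Continuous f) (hh0 : ∀ σ, 0 ≤ h σ)
    (hinv : ∀ (t : ℝ) σ, h (rotF P (fun x => t * φ x) σ) = h σ) :
    Ex β E (fun σ => h σ * f σ) ≤ (Ex β E (fun σ => h σ * f (rotF P φ σ) ^ 2) +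
      Ex β E (fun σ => h σ * Real.exp (β / 2 * ∑ x, nodeW E φ x * P.proj (σ x)))) / 2 := by
  set G : (V → Spin n) → ℝ := fun σ => Real.exp (β / 2 * ∑ x, nodeW E φ x * P.proj (σ x)) with hG
  have hGc : Continuous G := by simp only [hG, Plane.proj]; fun_prop
  have hGi : ∀ σ, G (rotF P (fun x => 2 * φ x) σ) = G σ := fun σ => by
    simp only [hG, rotF_coe, Plane.proj_rot]
  have h1 := hinv 1
  simp only [one_mul] at h1
  have e1 : Ex β E (fun σ => h σ * f σ) =
      ∫ σ, h σ * f (rotF P φ σ) * Real.exp (β * bondSum E (rotF P φ σ)) ∂freeLaw V n := by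
    rw [Ex, ← integral_rotF P φ (F := fun σ => h σ * f σ * Real.exp (β * bondSum E σ)) (by fun_prop)]
    simp only [h1]
  have e2 : Ex β E (fun σ => h σ * G σ) = ∫ σ, h σ * G σ *
      Real.exp (β * bondSum E (rotF P (fun x => 2 * φ x) σ)) ∂freeLaw V n := by
    rw [Ex, ← integral_rotF P (fun x => 2 * φ x)
      (F := fun σ => h σ * G σ * Real.exp (β * bondSum E σ)) (by fun_prop)]
    simp only [hinv 2, hGi]
  rw [e1, e2, Ex, ← integral_add (integ (by fun_prop)) (integ (by fun_prop)), ← integral_div]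
  refine integral_mono (integ (by fun_prop)) (integ (by fun_prop)) fun σ => ?_
  set H := β * bondSum E σ
  set HR := β * bondSum E (rotF P φ σ)
  have hd : 2 * HR - H ≤ β * bondSum E (rotF P (fun x => 2 * φ x) σ) +
      β / 2 * ∑ x, nodeW E φ x * P.proj (σ x) := by
    have := mul_le_mul_of_nonneg_left (energy_diff_le P φ E σ) hβ
    simp only [HR, H]; linarith
  have hle := Real.exp_le_exp.2 hd
  rw [Real.exp_add] at hle
  change Real.exp (2 * HR - H) ≤ _ * G σ at hle
  have hsq : f (rotF P φ σ) * Real.exp HR ≤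
      (f (rotF P φ σ) ^ 2 * Real.exp H + Real.exp (2 * HR - H)) / 2 := by
    have e : Real.exp HR = Real.exp (H / 2) * Real.exp ((2 * HR - H) / 2) := by
      rw [← Real.exp_add]; congr 1; ring
    have ea : ∀ z : ℝ, Real.exp z = Real.exp (z / 2) ^ 2 := fun z => by
      rw [sq, ← Real.exp_add]; congr 1; ring
    rw [e, ea H, ea (2 * HR - H)]
    linarith [sq_nonneg (f (rotF P φ σ) * Real.exp (H / 2) - Real.exp ((2 * HR - H) / 2))]
  show h σ * f (rotF P φ σ) * Real.exp HR ≤ _
  have hh' := hh0 σ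
  nlinarith [mul_le_mul_of_nonneg_left hsq hh', mul_le_mul_of_nonneg_left hle hh']

/-- Exponentials of weighted one-site quantities, by convexity. -/
theorem convex_step [NeZero n] {β : ℝ} {E : Finset (V × V)} {ι : Type*} [Fintype ι]
    {h : (V → Spin n) → ℝ} (hh : Continuous h) (hh0 : ∀ σ, 0 ≤ h σ) {n0 K : ℝ} (hn0 : 0 < n0)
    (w : ι → ℝ) (hw : ∀ i, 0 ≤ w i) (hw1 : ∑ i, w i ≤ n0)
    (X : ι → (V → Spin n) → ℝ) (hX : ∀ i, Continuous (X i))
    (hb : ∀ i, w i ≠ 0 → Ex β E (fun σ => h σ * Real.exp (n0 * X i σ)) ≤ K * Ex β E h) :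
    Ex β E (fun σ => h σ * Real.exp (∑ i, w i * X i σ)) ≤
      (1 + (∑ i, w i) / n0 * (K - 1)) * Ex β E h := by
  classical
  set p : ι → ℝ := fun i => w i / n0
  set rest : ℝ := 1 - ∑ i, p i with hrest
  have hp0 : ∀ i, 0 ≤ p i := fun i => div_nonneg (hw i) hn0.le
  have hps : ∑ i, p i = (∑ i, w i) / n0 := (Finset.sum_div _ _ _).symm
  have hr0 : 0 ≤ rest := by
    rw [hrest, hps, sub_nonneg, div_le_one hn0]; exact hw1
  have hpt : ∀ σ, h σ * Real.exp (∑ i, w i * X i σ) ≤
      rest * h σ + ∑ i, p i * (h σ * Real.exp (n0 * X i σ)) := by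
    intro σ
    have h1 := convexOn_exp.map_sum_le (t := (Finset.univ : Finset (Option ι)))
      (w := fun o => o.elim rest p) (p := fun o => o.elim 0 fun i => n0 * X i σ)
      (fun o _ => by cases o <;> simp [hr0, hp0]) (by simp [Fintype.sum_option, rest])
      (fun o _ => Set.mem_univ _)
    simp only [Fintype.sum_option, Option.elim_none, Option.elim_some, smul_eq_mul, mul_zero,
      zero_add, Real.exp_zero, mul_one] at h1
    have e : ∑ i, p i * (n0 * X i σ) = ∑ i, w i * X i σ :=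
      Finset.sum_congr rfl fun i _ => by simp only [p]; field_simp
    rw [e] at h1
    refine (mul_le_mul_of_nonneg_left h1 (hh0 σ)).trans (le_of_eq ?_)
    rw [mul_add, Finset.mul_sum, mul_comm (h σ) rest]
    congr 1
    exact Finset.sum_congr rfl fun i _ => by ring
  calc Ex β E (fun σ => h σ * Real.exp (∑ i, w i * X i σ))
      ≤ Ex β E (fun σ => rest * h σ + ∑ i, p i * (h σ * Real.exp (n0 * X i σ))) :=
        Ex_mono (by fun_prop) (by fun_prop) hpt
    _ = rest * Ex β E h + ∑ i, p i * Ex β E (fun σ => h σ * Real.exp (n0 * X i σ)) := by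
        have := Ex_sum (Finset.univ : Finset (Option ι)) (β := β) (E := E)
          (F := fun o σ => o.elim (rest * h σ) fun i => p i * (h σ * Real.exp (n0 * X i σ)))
          (fun o _ => by cases o <;> simp only [Option.elim_none, Option.elim_some] <;> fun_prop)
        simp only [Fintype.sum_option, Option.elim_none, Option.elim_some, Ex_const_mul] at this
        exact this
    _ ≤ rest * Ex β E h + ∑ i, p i * (K * Ex β E h) := by
        refine add_le_add le_rfl (Finset.sum_le_sum fun i _ => ?_)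
        by_cases hi : w i = 0
        · simp [p, hi]
        · exact mul_le_mul_of_nonneg_left (hb i hi) (hp0 i)
    _ = _ := by rw [← Finset.sum_mul, hps, hrest, hps]; ring

/-- The averaged rotation step at one site. -/
theorem average_step [NeZero n] (hn : 2 ≤ n) {β : ℝ} (hβ : 0 ≤ β) {E : Finset (V × V)} (φ : V → ℝ)
    (x : V) (hx : φ x = 1) {h : (V → Spin n) → ℝ} (hh : Continuous h) (hh0 : ∀ σ, 0 ≤ h σ)
    (hinv : ∀ (P : Plane n) (t : ℝ) σ, h (rotF P (fun z => t * φ z) σ) = h σ)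
    {M : ℝ} (hM : ∀ (P : Plane n) (θ : ℝ), |θ| ≤ Real.pi →
      Ex β E (fun σ => h σ * Real.exp (β / 2 * ∑ z, nodeW E (fun z => θ * φ z) z * P.proj (σ z)))
        ≤ M)
    (e : Euc n) (he : ⟪e, e⟫ = 1) :
    Ex β E (fun σ => h σ * Real.exp ((n : ℝ) / 16 * ⟪e, (σ x : Euc n)⟫ ^ 2)) ≤
      (mgfA * Ex β E h + M) / 2 := by
  have hn0 : 0 < n := by omega
  have key : ∀ η : Fin n → Bool,
      Ex β E (fun σ => h σ * Real.exp ((n : ℝ) / 16 * ⟪e, (σ x : Euc n)⟫ ^ 2)) ≤
      (Ex β E (fun σ => h σ * Real.exp ((n : ℝ) / 8 * ⟪signVec n η, (σ x : Euc n)⟫ ^ 2)) + M) / 2 := by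
    intro η
    obtain ⟨P, θ, hPe, hθ, hrot⟩ := exists_plane hn e (signVec n η) he (signVec_inner η hn0)
    have hr := rot_step hβ (E := E) P (fun z => -θ * φ z) hh
      (f := fun σ => Real.exp ((n : ℝ) / 16 * ⟪e, (σ x : Euc n)⟫ ^ 2)) (by fun_prop) hh0
      (fun t σ => by simpa only [mul_assoc] using hinv P (t * -θ) σ)
    have hf2 : ∀ σ : V → Spin n,
        Real.exp ((n : ℝ) / 16 * ⟪e, (rotF P (fun z => -θ * φ z) σ x : Euc n)⟫ ^ 2) ^ 2 =
          Real.exp ((n : ℝ) / 8 * ⟪signVec n η, (σ x : Euc n)⟫ ^ 2) := by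
      intro σ
      have : ⟪e, (rotF P (fun z => -θ * φ z) σ x : Euc n)⟫ = ⟪signVec n η, (σ x : Euc n)⟫ := by
        rw [rotF_coe, hx, mul_one, ← hrot]
        conv_rhs => rw [← P.inner_rot_rot (-θ), P.rot_rot, neg_add_cancel, P.rot_zero]
      rw [this, sq (Real.exp _), ← Real.exp_add]; congr 1; ring
    simp only [hf2] at hr
    refine hr.trans ?_
    gcongr
    exact hM P (-θ) (by rwa [abs_neg])
  have hsum := Finset.sum_le_sum fun η (_ : η ∈ (Finset.univ : Finset (Fin n → Bool))) => key η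
  rw [Finset.sum_const, Finset.card_univ, Fintype.card_pi_const, Fintype.card_bool,
    nsmul_eq_mul, ← Finset.sum_div, Finset.sum_add_distrib, Finset.sum_const, Finset.card_univ,
    Fintype.card_pi_const, Fintype.card_bool, nsmul_eq_mul] at hsum
  have hA : ∑ η : Fin n → Bool,
      Ex β E (fun σ => h σ * Real.exp ((n : ℝ) / 8 * ⟪signVec n η, (σ x : Euc n)⟫ ^ 2)) ≤
      2 ^ n * mgfA * Ex β E h := by
    rw [← Ex_sum _ fun η _ => by fun_prop, ← Ex_const_mul]
    refine Ex_mono (by fun_prop) (by fun_prop) fun σ => ?_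
    rw [← Finset.mul_sum, mul_comm (2 ^ n * mgfA)]
    exact mul_le_mul_of_nonneg_left (sum_sign_le hn0 _ (norm_eq_of_mem_sphere (σ x))) (hh0 σ)
  push_cast at hsum
  have h2 : (0 : ℝ) < 2 ^ n := by positivity
  refine le_of_mul_le_mul_left ?_ h2
  linarith

end Vale.Agent.P163
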