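import Vale.Agent.P163.Model
import Mathlib.Analysis.Complex.CauchyIntegral

/-!
The imaginary rotation of McBryan and Spencer.
-/

noncomputable section

namespace Vale.Agent.P163

open MeasureTheory Metric
open scoped RealInnerProductSpace ComplexConjugate

variable {n : ℕ} {V : Type*} [Fintype V] [DecidableEq V]

/-- The planar component as a complex number. -/
def Plane.coord (P : Plane n) (v : Euc n) : ℂ := ⟪P.e, v⟫ + Complex.I * ⟪P.f, v⟫

theorem Plane.coord_rot (P : Plane n) (θ : ℝ) (v : Euc n) :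
    P.coord (P.rotFun θ v) = Complex.exp (θ * Complex.I) * P.coord v := by
  simp only [Plane.coord, P.inner_e_rot, P.inner_f_rot, Complex.exp_mul_I]
  push_cast
  linear_combination -((Complex.sin θ) * (⟪P.f, v⟫ : ℂ)) * Complex.I_sq

theorem Plane.normSq_coord (P : Plane n) (v : Euc n) : Complex.normSq (P.coord v) = P.proj v := by
  simp [Plane.coord, Plane.proj, Complex.normSq_apply]; ring

theorem Plane.proj_le_one (P : Plane n) (v : Spin n) : P.proj v ≤ 1 := by
  have h := real_inner_self_nonneg (x := (v : Euc n) - ⟪P.e, (v : Euc n)⟫ • P.e -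
    ⟪P.f, (v : Euc n)⟫ • P.f)
  have hv : ⟪(v : Euc n), (v : Euc n)⟫ = 1 := by
    rw [real_inner_self_eq_norm_sq, norm_eq_of_mem_sphere v, one_pow]
  simp only [inner_sub_left, inner_sub_right, real_inner_smul_left, real_inner_smul_right,
    P.he, P.hf, P.hef, P.hfe, hv, real_inner_comm P.e (v : Euc n),
    real_inner_comm P.f (v : Euc n)] at h
  simp only [Plane.proj]
  linarith

/-- The integrand after a rotation by the complex angle `z • Φ`. -/
def shiftFun (β : ℝ) (E : Finset (V × V)) (P : Plane n) (Φ : V → ℝ) (x y : V) (z : ℂ)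
    (σ : V → Spin n) : ℂ :=
  P.coord (σ x) * conj (P.coord (σ y)) *
    Complex.exp (z * Complex.I * ((Φ x - Φ y : ℝ) : ℂ) +
      β * ∑ b ∈ E, ((P.perp (σ b.1) (σ b.2) : ℂ) +
        Complex.cos (z * ((Φ b.1 - Φ b.2 : ℝ) : ℂ)) * (P.inPart (σ b.1) (σ b.2) : ℂ) +
        Complex.sin (z * ((Φ b.1 - Φ b.2 : ℝ) : ℂ)) * (P.cross (σ b.1) (σ b.2) : ℂ)))

theorem shift_real (β : ℝ) (E : Finset (V × V)) (P : Plane n) (Φ : V → ℝ) (x y : V) (t : ℝ)
    (σ : V → Spin n) :
    shiftFun β E P Φ x y t σ = P.coord (rotF P (fun v => t * Φ v) σ x) *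
      conj (P.coord (rotF P (fun v => t * Φ v) σ y)) *
        (Real.exp (β * bondSum E (rotF P (fun v => t * Φ v) σ)) : ℝ) := by
  rw [bondSum_rotF, Complex.ofReal_exp, rotF_coe, rotF_coe, P.coord_rot, P.coord_rot]
  simp only [map_mul, ← Complex.exp_conj, Complex.conj_ofReal, Complex.conj_I]
  push_cast
  rw [shiftFun, Complex.exp_add,
    show (t : ℂ) * Complex.I * ((Φ x - Φ y : ℝ) : ℂ) =
      (t : ℂ) * (Φ x : ℂ) * Complex.I + (t : ℂ) * (Φ y : ℂ) * -Complex.I by push_cast; ring,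
    Complex.exp_add]
  push_cast
  simp only [mul_sub]
  ring

/-- The derivative of the integrand in the angle. -/
def shiftDeriv (β : ℝ) (E : Finset (V × V)) (P : Plane n) (Φ : V → ℝ) (x y : V) (z : ℂ)
    (σ : V → Spin n) : ℂ :=
  shiftFun β E P Φ x y z σ * (Complex.I * ((Φ x - Φ y : ℝ) : ℂ) +
      β * ∑ b ∈ E, (-Complex.sin (z * ((Φ b.1 - Φ b.2 : ℝ) : ℂ)) * ((Φ b.1 - Φ b.2 : ℝ) : ℂ) *
          (P.inPart (σ b.1) (σ b.2) : ℂ) +
        Complex.cos (z * ((Φ b.1 - Φ b.2 : ℝ) : ℂ)) * ((Φ b.1 - Φ b.2 : ℝ) : ℂ) *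
          (P.cross (σ b.1) (σ b.2) : ℂ)))

theorem hasDerivAt_shift (β : ℝ) (E : Finset (V × V)) (P : Plane n) (Φ : V → ℝ) (x y : V)
    (σ : V → Spin n) (z : ℂ) :
    HasDerivAt (fun w => shiftFun β E P Φ x y w σ) (shiftDeriv β E P Φ x y z σ) z := by
  have hl : ∀ c : ℂ, HasDerivAt (fun w : ℂ => w * c) c z := fun c => by
    simpa using (hasDerivAt_id z).mul_const c
  have hs := HasDerivAt.fun_sum (u := E) fun b (_ : b ∈ E) =>
    (((hl ((Φ b.1 - Φ b.2 : ℝ) : ℂ)).ccos.mul_const (P.inPart (σ b.1) (σ b.2) : ℂ)).const_add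
      (P.perp (σ b.1) (σ b.2) : ℂ)).add
      ((hl ((Φ b.1 - Φ b.2 : ℝ) : ℂ)).csin.mul_const (P.cross (σ b.1) (σ b.2) : ℂ))
  have he := (((hl Complex.I).mul_const ((Φ x - Φ y : ℝ) : ℂ)).add (hs.const_mul (β : ℂ))).cexp
  have hh := he.const_mul (P.coord (σ x) * conj (P.coord (σ y)))
  refine hh.congr_deriv ?_
  simp only [shiftDeriv, shiftFun, Pi.add_apply]
  ring

/-- The bound by the imaginary rotation. -/
theorem shift_bound [NeZero n] {β : ℝ} (hβ : 0 ≤ β) (E : Finset (V × V)) (P : Plane n) (Φ : V → ℝ)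
    (x y : V) (hsmall : ∀ b ∈ E, |Φ b.1 - Φ b.2| ≤ 1) :
    |Ex β E (fun σ : V → Spin n => P.inPart (σ x) (σ y))| ≤ Real.exp (Φ x - Φ y) *
      Ex β E (fun σ : V → Spin n => Real.exp (β / 2 * ∑ v, nodeW E Φ v * P.proj (σ v))) := by
  have hcont : ∀ z, Continuous (shiftFun β E P Φ x y z) := fun z => by
    unfold shiftFun Plane.coord Plane.perp Plane.inPart Plane.cross; fun_prop
  have hcd : Continuous fun q : ℂ × (V → Spin n) => shiftDeriv β E P Φ x y q.1 q.2 := by
    unfold shiftDeriv shiftFun Plane.coord Plane.perp Plane.inPart Plane.cross; fun_prop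
  set I : ℂ → ℂ := fun z => ∫ σ, shiftFun β E P Φ x y z σ ∂freeLaw V n
  have hdiff : Differentiable ℂ I := by
    intro z₀
    obtain ⟨C, hC⟩ := ((isCompact_closedBall z₀ 1).prod
      (isCompact_univ (X := V → Spin n))).exists_bound_of_continuousOn hcd.continuousOn
    exact (hasDerivAt_integral_of_dominated_loc_of_deriv_le (μ := freeLaw V n)
      (F := shiftFun β E P Φ x y) (F' := shiftDeriv β E P Φ x y) (x₀ := z₀)
      (bound := fun _ => C) (Metric.closedBall_mem_nhds z₀ one_pos)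
      (Filter.Eventually.of_forall fun z => (hcont z).aestronglyMeasurable) (integ (hcont z₀))
      (hcd.comp (continuous_const.prodMk continuous_id)).aestronglyMeasurable
      (Filter.Eventually.of_forall fun σ z hz => hC (z, σ) ⟨hz, Set.mem_univ σ⟩)
      (integrable_const C)
      (Filter.Eventually.of_forall fun σ z _ => hasDerivAt_shift β E P Φ x y σ z)).2.differentiableAt
  have hreal : ∀ t : ℝ, I t = I 0 := by
    intro t
    have hG : Continuous fun σ : V → Spin n => P.coord (σ x) * conj (P.coord (σ y)) *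
        ((Real.exp (β * bondSum E σ) : ℝ) : ℂ) := by unfold Plane.coord; fun_prop
    have h : ∀ s : ℝ, I s = ∫ σ, P.coord (σ x) * conj (P.coord (σ y)) *
        ((Real.exp (β * bondSum E σ) : ℝ) : ℂ) ∂freeLaw V n := fun s => by
      rw [← integral_rotF P (fun v => s * Φ v) hG]
      exact integral_congr_ae (Filter.Eventually.of_forall fun σ => shift_real β E P Φ x y s σ)
    rw [h t, ← Complex.ofReal_zero, h 0]
  have hI : I (-Complex.I) = I 0 := by
    refine congrFun (AnalyticOnNhd.eq_of_frequently_eq (z₀ := 0) (f := I) (g := fun _ => I 0)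
      (fun z _ => hdiff.analyticAt z) analyticOnNhd_const ?_) _
    rw [Filter.frequently_iff]
    intro U hU
    obtain ⟨ε, hε, hsub⟩ := Metric.mem_nhdsWithin_iff.1 hU
    refine ⟨((ε / 2 : ℝ) : ℂ), hsub ⟨?_, ?_⟩, hreal _⟩
    · simp [abs_of_pos hε, hε]
    · simp [hε.ne']
  have hzero : (I 0).re = Ex β E (fun σ : V → Spin n => P.inPart (σ x) (σ y)) := by
    have hr := shift_real β E P Φ x y 0
    have hz : ∀ σ : V → Spin n, rotF P (fun v => (0 : ℝ) * Φ v) σ = σ := fun σ => by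
      funext v; apply Subtype.ext; rw [rotF_coe, zero_mul, P.rot_zero]
    simp only [hz, Complex.ofReal_zero] at hr
    show (∫ σ, shiftFun β E P Φ x y 0 σ ∂freeLaw V n).re = _
    rw [show (∫ σ, shiftFun β E P Φ x y 0 σ ∂freeLaw V n).re =
      ∫ σ, (shiftFun β E P Φ x y 0 σ).re ∂freeLaw V n from (integral_re (integ (hcont 0))).symm, Ex]
    refine integral_congr_ae (Filter.Eventually.of_forall fun σ => ?_)
    simp only [hr, Complex.re_mul_ofReal, Plane.coord, Plane.inPart]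
    simp
  rw [← hzero]
  refine (Complex.abs_re_le_norm _).trans ?_
  rw [← hI]
  refine (norm_integral_le_integral_norm _).trans ?_
  rw [← Ex_const_mul, Ex]
  refine integral_mono (integ (hcont _).norm) (integ (by unfold Plane.proj; fun_prop)) fun σ => ?_
  simp only [shiftFun, norm_mul, Complex.norm_exp, RCLike.norm_conj]
  have hc1 : ∀ v, ‖P.coord (σ v)‖ ≤ 1 := fun v => by
    rw [Complex.norm_def, P.normSq_coord]
    exact Real.sqrt_le_one.2 (P.proj_le_one _)
  have harg : (-Complex.I * Complex.I * ((Φ x - Φ y : ℝ) : ℂ) +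
      β * ∑ b ∈ E, ((P.perp (σ b.1) (σ b.2) : ℂ) +
        Complex.cos (-Complex.I * ((Φ b.1 - Φ b.2 : ℝ) : ℂ)) * (P.inPart (σ b.1) (σ b.2) : ℂ) +
        Complex.sin (-Complex.I * ((Φ b.1 - Φ b.2 : ℝ) : ℂ)) * (P.cross (σ b.1) (σ b.2) : ℂ))).re =
      Φ x - Φ y + β * ∑ b ∈ E, (P.perp (σ b.1) (σ b.2) +
        Real.cosh (Φ b.1 - Φ b.2) * P.inPart (σ b.1) (σ b.2)) := by
    have hcs : ∀ a : ℝ, Complex.cos (-Complex.I * (a : ℂ)) = (Real.cosh a : ℂ) ∧
        Complex.sin (-Complex.I * (a : ℂ)) = -((Real.sinh a : ℂ) * Complex.I) := fun a => by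
      rw [show -Complex.I * (a : ℂ) = -((a : ℂ) * Complex.I) by ring, Complex.cos_neg,
        Complex.sin_neg, Complex.cos_mul_I, Complex.sin_mul_I, Complex.ofReal_cosh,
        Complex.ofReal_sinh]
      simp
    simp only [(hcs _).1, (hcs _).2]
    simp only [neg_mul, Complex.I_mul_I, neg_neg, one_mul, Complex.add_re,
      Complex.ofReal_re, Complex.re_ofReal_mul, Complex.re_sum, Complex.neg_re, Complex.mul_re,
      Complex.I_re, Complex.I_im, Complex.ofReal_im]
    simp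
  rw [harg]
  have hen : Φ x - Φ y + β * ∑ b ∈ E, (P.perp (σ b.1) (σ b.2) +
        Real.cosh (Φ b.1 - Φ b.2) * P.inPart (σ b.1) (σ b.2)) ≤
      (Φ x - Φ y) + β / 2 * ∑ v, nodeW E Φ v * P.proj (σ v) + β * bondSum E σ := by
    rw [bondSum_plane P E σ, sum_nodeW_mul, add_assoc]
    refine add_le_add le_rfl ?_
    rw [Finset.mul_sum, Finset.mul_sum, Finset.mul_sum, ← Finset.sum_add_distrib]
    refine Finset.sum_le_sum fun b hb => ?_
    set a := Φ b.1 - Φ b.2
    have ha : |a| ≤ 1 := hsmall b hb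
    have hA := P.abs_comb_le 1 0 (by norm_num) (σ b.1) (σ b.2)
    simp only [one_mul, zero_mul, add_zero] at hA
    have hc : Real.cosh a - 1 ≤ a ^ 2 := by
      have h1 := Real.cosh_le_exp_half_sq a
      have ha2 : a ^ 2 ≤ 1 := by rw [← sq_abs]; nlinarith [abs_nonneg a]
      have h2 := Real.abs_exp_sub_one_le (x := a ^ 2 / 2) (by
        rw [abs_of_nonneg (by positivity)]; linarith)
      rw [abs_of_nonneg (show 0 ≤ a ^ 2 / 2 by positivity)] at h2
      have h3 := le_abs_self (Real.exp (a ^ 2 / 2) - 1)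
      linarith
    have hc0 : 0 ≤ Real.cosh a - 1 := by linarith [Real.one_le_cosh a]
    have hm : (Real.cosh a - 1) * P.inPart (σ b.1) (σ b.2) ≤
        a ^ 2 * ((P.proj (σ b.1) + P.proj (σ b.2)) / 2) :=
      le_trans (mul_le_mul_of_nonneg_left ((le_abs_self _).trans hA) hc0)
        (mul_le_mul_of_nonneg_right hc (le_trans (abs_nonneg _) hA))
    have := mul_le_mul_of_nonneg_left hm hβ
    linarith
  calc ‖P.coord (σ x)‖ * ‖P.coord (σ y)‖ * Real.exp _ ≤ 1 * 1 * Real.exp _ :=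
        mul_le_mul (mul_le_mul (hc1 x) (hc1 y) (norm_nonneg _) zero_le_one) (Real.exp_le_exp.2 hen)
          (Real.exp_pos _).le (by norm_num)
    _ = _ := by rw [one_mul, one_mul, Real.exp_add, Real.exp_add]

end Vale.Agent.P163
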