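import Vale.Agent.P163.Defs

/-!
The uniform law of the sphere, plane rotations and an averaging inequality.
-/

noncomputable section

namespace Vale.Agent.P163

open MeasureTheory Metric ProbabilityTheory
open scoped RealInnerProductSpace Pointwise

variable {n : ℕ}

instance isProbSphereUnif [NeZero n] : IsProbabilityMeasure (sphereUnif n) := by
  refine ⟨?_⟩
  rw [sphereUnif, Measure.smul_apply, smul_eq_mul]
  refine ENNReal.inv_mul_cancel ?_ ?_
  · rw [Measure.toSphere_apply_univ]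
    exact mul_ne_zero (by simpa using (NeZero.ne n))
      (Metric.measure_ball_pos volume _ one_pos).ne'
  · exact measure_ne_top _ _

/-- The map of the sphere induced by an isometry. -/
def sphereMap (e : Euc n ≃ₗᵢ[ℝ] Euc n) (v : Spin n) : Spin n := ⟨e v, by simp⟩

theorem continuous_sphereMap (e : Euc n ≃ₗᵢ[ℝ] Euc n) : Continuous (sphereMap e) :=
  (e.continuous.comp continuous_subtype_val).subtype_mk _

theorem map_sphereUnif (e : Euc n ≃ₗᵢ[ℝ] Euc n) :
    (sphereUnif n).map (sphereMap e) = sphereUnif n := by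
  rw [sphereUnif, Measure.map_smul]
  congr 1
  refine Measure.ext fun s hs => ?_
  rw [Measure.map_apply (continuous_sphereMap e).measurable hs,
    Measure.toSphere_apply' _ ((continuous_sphereMap e).measurable hs),
    Measure.toSphere_apply' _ hs]
  congr 1
  have himg : (Subtype.val '' (sphereMap e ⁻¹' s) : Set (Euc n)) = e.symm '' (Subtype.val '' s) := by
    ext x
    constructor
    · rintro ⟨v, hv, rfl⟩
      exact ⟨e v, ⟨sphereMap e v, hv, rfl⟩, e.symm_apply_apply _⟩
    · rintro ⟨_, ⟨v, hv, rfl⟩, rfl⟩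
      refine ⟨sphereMap e.symm v, ?_, rfl⟩
      have hvv : sphereMap e (sphereMap e.symm v) = v := Subtype.ext (e.apply_symm_apply _)
      rw [Set.mem_preimage, hvv]; exact hv
  have hsm : (Set.Ioo (0 : ℝ) 1 • (e.symm '' (Subtype.val '' s)) : Set (Euc n))
      = e ⁻¹' (Set.Ioo (0 : ℝ) 1 • (Subtype.val '' s)) := by
    ext x
    simp only [Set.mem_preimage, Set.mem_smul, Set.mem_image]
    constructor
    · rintro ⟨r, hr, _, ⟨w, hw, rfl⟩, rfl⟩
      exact ⟨r, hr, w, hw, by simp⟩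
    · rintro ⟨r, hr, w, hw, h⟩
      exact ⟨r, hr, _, ⟨w, hw, rfl⟩, by rw [← map_smul, h, e.symm_apply_apply]⟩
  rw [himg, hsm]
  exact e.measurePreserving.measure_preimage_emb e.toHomeomorph.measurableEmbedding _

/-- An orthonormal pair. -/
structure Plane (n : ℕ) where
  e : Euc n
  f : Euc n
  he : ⟪e, e⟫ = 1
  hf : ⟪f, f⟫ = 1
  hef : ⟪e, f⟫ = 0

/-- The rotation by `θ` in a plane, as a map. -/
def Plane.rotFun (P : Plane n) (θ : ℝ) (v : Euc n) : Euc n :=
  v + ((Real.cos θ - 1) * ⟪P.e, v⟫ - Real.sin θ * ⟪P.f, v⟫) • P.e +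
    ((Real.cos θ - 1) * ⟪P.f, v⟫ + Real.sin θ * ⟪P.e, v⟫) • P.f

theorem Plane.hfe (P : Plane n) : ⟪P.f, P.e⟫ = 0 := by rw [real_inner_comm]; exact P.hef

theorem Plane.inner_e_rot (P : Plane n) (θ : ℝ) (v : Euc n) :
    ⟪P.e, P.rotFun θ v⟫ = Real.cos θ * ⟪P.e, v⟫ - Real.sin θ * ⟪P.f, v⟫ := by
  simp only [Plane.rotFun, inner_add_right, real_inner_smul_right, P.he, P.hef]
  ring

theorem Plane.inner_f_rot (P : Plane n) (θ : ℝ) (v : Euc n) :
    ⟪P.f, P.rotFun θ v⟫ = Real.sin θ * ⟪P.e, v⟫ + Real.cos θ * ⟪P.f, v⟫ := by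
  simp only [Plane.rotFun, inner_add_right, real_inner_smul_right, P.hf, P.hfe]
  ring

theorem Plane.rot_rot (P : Plane n) (a b : ℝ) (v : Euc n) :
    P.rotFun a (P.rotFun b v) = P.rotFun (a + b) v := by
  conv_lhs => rw [Plane.rotFun, P.inner_e_rot, P.inner_f_rot, Plane.rotFun]
  rw [Plane.rotFun, Real.cos_add, Real.sin_add]
  module

theorem Plane.rot_zero (P : Plane n) (v : Euc n) : P.rotFun 0 v = v := by
  simp [Plane.rotFun]

theorem Plane.inner_rot_rot (P : Plane n) (θ : ℝ) (v w : Euc n) :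
    ⟪P.rotFun θ v, P.rotFun θ w⟫ = ⟪v, w⟫ := by
  have h1 := P.inner_e_rot θ w
  have h2 := P.inner_f_rot θ w
  have h3 : ⟪v, P.rotFun θ w⟫ = ⟪v, w⟫ +
      ((Real.cos θ - 1) * ⟪P.e, w⟫ - Real.sin θ * ⟪P.f, w⟫) * ⟪P.e, v⟫ +
      ((Real.cos θ - 1) * ⟪P.f, w⟫ + Real.sin θ * ⟪P.e, w⟫) * ⟪P.f, v⟫ := by
    simp only [Plane.rotFun, inner_add_right, real_inner_smul_right, real_inner_comm P.e v,
      real_inner_comm P.f v]
  conv_lhs => rw [Plane.rotFun]
  simp only [inner_add_left, real_inner_smul_left, h1, h2, h3]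
  linear_combination (⟪P.e, v⟫ * ⟪P.e, w⟫ + ⟪P.f, v⟫ * ⟪P.f, w⟫) * Real.sin_sq_add_cos_sq θ

theorem Plane.rotFun_add (P : Plane n) (θ : ℝ) (v w : Euc n) :
    P.rotFun θ (v + w) = P.rotFun θ v + P.rotFun θ w := by
  simp only [Plane.rotFun, inner_add_right]
  module

theorem Plane.rotFun_smul (P : Plane n) (θ : ℝ) (c : ℝ) (v : Euc n) :
    P.rotFun θ (c • v) = c • P.rotFun θ v := by
  simp only [Plane.rotFun, real_inner_smul_right]
  module

theorem Plane.norm_rot (P : Plane n) (θ : ℝ) (v : Euc n) : ‖P.rotFun θ v‖ = ‖v‖ := by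
  rw [norm_eq_sqrt_real_inner, norm_eq_sqrt_real_inner, P.inner_rot_rot]

/-- The rotation as an isometry. -/
def Plane.rot (P : Plane n) (θ : ℝ) : Euc n ≃ₗᵢ[ℝ] Euc n where
  toFun := P.rotFun θ
  map_add' := P.rotFun_add θ
  map_smul' := P.rotFun_smul θ
  invFun := P.rotFun (-θ)
  left_inv v := by rw [P.rot_rot, neg_add_cancel, P.rot_zero]
  right_inv v := by rw [P.rot_rot, add_neg_cancel, P.rot_zero]
  norm_map' := P.norm_rot θ

theorem Plane.rot_apply (P : Plane n) (θ : ℝ) (v : Euc n) : P.rot θ v = P.rotFun θ v := rfl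

/-- The part of `⟪σ, τ⟫` orthogonal to the plane. -/
def Plane.perp (P : Plane n) (v w : Euc n) : ℝ :=
  ⟪v, w⟫ - ⟪P.e, v⟫ * ⟪P.e, w⟫ - ⟪P.f, v⟫ * ⟪P.f, w⟫

/-- The part in the plane. -/
def Plane.inPart (P : Plane n) (v w : Euc n) : ℝ := ⟪P.e, v⟫ * ⟪P.e, w⟫ + ⟪P.f, v⟫ * ⟪P.f, w⟫

/-- The oriented area in the plane. -/
def Plane.cross (P : Plane n) (v w : Euc n) : ℝ := ⟪P.e, v⟫ * ⟪P.f, w⟫ - ⟪P.f, v⟫ * ⟪P.e, w⟫

/-- The squared length of the projection to the plane. -/
def Plane.proj (P : Plane n) (v : Euc n) : ℝ := ⟪P.e, v⟫ ^ 2 + ⟪P.f, v⟫ ^ 2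

theorem Plane.inner_rot_two (P : Plane n) (a b : ℝ) (v w : Euc n) :
    ⟪P.rotFun a v, P.rotFun b w⟫ =
      P.perp v w + Real.cos (a - b) * P.inPart v w + Real.sin (a - b) * P.cross v w := by
  have h : P.rotFun a v = P.rotFun b (P.rotFun (a - b) v) := by rw [P.rot_rot]; ring_nf
  rw [h, P.inner_rot_rot]
  simp only [Plane.rotFun, inner_add_left, real_inner_smul_left, Plane.perp, Plane.inPart,
    Plane.cross]
  ring

theorem Plane.proj_rot (P : Plane n) (θ : ℝ) (v : Euc n) : P.proj (P.rotFun θ v) = P.proj v := by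
  simp only [Plane.proj, P.inner_e_rot, P.inner_f_rot]
  linear_combination (⟪P.e, v⟫ ^ 2 + ⟪P.f, v⟫ ^ 2) * Real.sin_sq_add_cos_sq θ

theorem Plane.abs_comb_le (P : Plane n) (c s : ℝ) (hcs : c ^ 2 + s ^ 2 ≤ 1) (v w : Euc n) :
    |c * P.inPart v w + s * P.cross v w| ≤ (P.proj v + P.proj w) / 2 := by
  have hA : P.inPart v w ^ 2 + P.cross v w ^ 2 = P.proj v * P.proj w := by
    simp only [Plane.inPart, Plane.cross, Plane.proj]; ring
  have hv : 0 ≤ P.proj v := by unfold Plane.proj; positivity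
  have hw : 0 ≤ P.proj w := by unfold Plane.proj; positivity
  have h1 : (c * P.inPart v w + s * P.cross v w) ^ 2 ≤ ((P.proj v + P.proj w) / 2) ^ 2 := by
    calc _ ≤ (c ^ 2 + s ^ 2) * (P.inPart v w ^ 2 + P.cross v w ^ 2) := by
          nlinarith [sq_nonneg (c * P.cross v w - s * P.inPart v w)]
      _ ≤ 1 * (P.proj v * P.proj w) := by rw [hA]; gcongr
      _ ≤ _ := by nlinarith [sq_nonneg (P.proj v - P.proj w)]
  exact abs_le_of_sq_le_sq h1 (by positivity)

/-- A unit vector is reached from another by a plane rotation of angle at most `π`. -/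
theorem exists_plane (hn : 2 ≤ n) (e u : Euc n) (he : ⟪e, e⟫ = 1) (hu : ⟪u, u⟫ = 1) :
    ∃ P : Plane n, ∃ θ : ℝ, P.e = e ∧ |θ| ≤ Real.pi ∧ P.rotFun θ e = u := by
  set c := ⟪e, u⟫ with hc
  have hc1 : c ^ 2 ≤ 1 := by
    have := real_inner_mul_inner_self_le e u
    rw [he, hu] at this
    nlinarith
  obtain ⟨f, hf, hef, hu'⟩ : ∃ f, ⟪f, f⟫ = 1 ∧ ⟪e, f⟫ = 0 ∧
      u = c • e + Real.sqrt (1 - c ^ 2) • f := by
    set w := u - c • e with hw
    have hew : ⟪e, w⟫ = 0 := by
      simp only [hw, inner_sub_right, real_inner_smul_right, he, hc, mul_one, sub_self]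
    have hww : ⟪w, w⟫ = 1 - c ^ 2 := by
      simp only [hw, inner_sub_left, inner_sub_right, real_inner_smul_left, real_inner_smul_right,
        he, hu, real_inner_comm e u, ← hc]
      ring
    by_cases hz : 1 - c ^ 2 = 0
    · have hw0 : w = 0 := inner_self_eq_zero.1 (by rw [hww, hz])
      have hK : (ℝ ∙ e)ᗮ ≠ ⊥ := by
        intro hbot
        rw [Submodule.orthogonal_eq_bot_iff] at hbot
        have h1 := finrank_span_singleton (K := ℝ) (v := e)
          (by intro h0; simp [h0] at he)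
        rw [hbot, finrank_top, finrank_euclideanSpace_fin] at h1
        omega
      obtain ⟨g, hg, hg0⟩ := Submodule.exists_mem_ne_zero_of_ne_bot hK
      have hng : (0 : ℝ) < ‖g‖ := norm_pos_iff.2 hg0
      refine ⟨‖g‖⁻¹ • g, ?_, ?_, ?_⟩
      · rw [real_inner_self_eq_norm_sq, norm_smul, norm_inv, norm_norm,
          inv_mul_cancel₀ hng.ne', one_pow]
      · rw [real_inner_smul_right, Submodule.mem_orthogonal_singleton_iff_inner_right.1 hg,
          mul_zero]
      · rw [hz, Real.sqrt_zero, zero_smul, add_zero]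
        exact sub_eq_zero.1 hw0
    · have hpos : 0 < 1 - c ^ 2 := lt_of_le_of_ne (by linarith) (Ne.symm hz)
      have hs := Real.mul_self_sqrt hpos.le
      have hs0 : Real.sqrt (1 - c ^ 2) ≠ 0 := (Real.sqrt_pos.2 hpos).ne'
      refine ⟨(Real.sqrt (1 - c ^ 2))⁻¹ • w, ?_, ?_, ?_⟩
      · rw [real_inner_smul_left, real_inner_smul_right, hww]
        field_simp
        linarith [hs]
      · rw [real_inner_smul_right, hew, mul_zero]
      · rw [smul_smul, mul_inv_cancel₀ hs0, one_smul, hw]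
        abel
  refine ⟨⟨e, f, he, hf, hef⟩, Real.arccos c, rfl, ?_, ?_⟩
  · rw [abs_of_nonneg (Real.arccos_nonneg c)]
    exact Real.arccos_le_pi c
  · have hfe : ⟪f, e⟫ = 0 := by rw [real_inner_comm]; exact hef
    simp only [Plane.rotFun, he, hfe]
    rw [Real.cos_arccos (by nlinarith) (by nlinarith), Real.sin_arccos, hu']
    module

/-- `∫ exp (x² / 8)` under the standard Gaussian law. -/
def mgfA : ℝ := ∫ x, Real.exp (x ^ 2 / 8) ∂gaussianReal 0 1

theorem integrable_exp_sq : Integrable (fun x : ℝ => Real.exp (x ^ 2 / 8)) (gaussianReal 0 1) := by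
  rw [gaussianReal_of_var_ne_zero 0 (by norm_num : (1 : NNReal) ≠ 0),
    integrable_withDensity_iff (measurable_gaussianPDF _ _)
      (Filter.Eventually.of_forall fun _ => gaussianPDF_lt_top)]
  simp only [toReal_gaussianPDF, gaussianPDFReal]
  have h := (integrable_exp_neg_mul_sq (b := (3 : ℝ) / 8) (by norm_num)).const_mul
    (Real.sqrt (2 * Real.pi * (1 : NNReal)))⁻¹
  refine h.congr (Filter.Eventually.of_forall fun x => ?_)
  simp only [NNReal.coe_one, sub_zero]
  rw [mul_left_comm, ← Real.exp_add]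
  congr 2; ring

theorem one_le_mgfA : 1 ≤ mgfA := by
  have h : ∫ _x, (1 : ℝ) ∂gaussianReal 0 1 ≤ mgfA :=
    integral_mono (integrable_const _) integrable_exp_sq fun x => Real.one_le_exp (by positivity)
  simpa using h

/-- The `±1/√n` vectors. -/
def signVec (n : ℕ) (η : Fin n → Bool) : Euc n :=
  WithLp.toLp 2 fun i => (if η i then 1 else -1) / Real.sqrt n

theorem signVec_inner (η : Fin n → Bool) (hn : 0 < n) : ⟪signVec n η, signVec n η⟫ = 1 := by
  have hn' : (0 : ℝ) < n := by exact_mod_cast hn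
  have h : ∀ i, (if η i then (1 : ℝ) else -1) / Real.sqrt n *
      ((if η i then (1 : ℝ) else -1) / Real.sqrt n) = 1 / n := fun i => by
    rw [div_mul_div_comm, Real.mul_self_sqrt hn'.le]; split <;> norm_num
  simp only [signVec, PiLp.inner_apply, RCLike.inner_apply, conj_trivial, h, Finset.sum_const,
    Finset.card_univ, Fintype.card_fin, nsmul_eq_mul]
  field_simp

/-- The average over the sign vectors. -/
theorem sum_sign_le (hn : 0 < n) (v : Euc n) (hv : ‖v‖ = 1) :
    ∑ η : Fin n → Bool, Real.exp ((n : ℝ) / 8 * ⟪signVec n η, v⟫ ^ 2) ≤ 2 ^ n * mgfA := by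
  have hn' : (0 : ℝ) < n := by exact_mod_cast hn
  have key : ∀ S : ℝ, Integrable (fun x => Real.exp (x * (S / 2))) (gaussianReal 0 1) ∧
      ∫ x, Real.exp (x * (S / 2)) ∂gaussianReal 0 1 = Real.exp (S ^ 2 / 8) := by
    intro S
    refine ⟨by simpa [mul_comm] using
      integrable_exp_mul_gaussianReal (μ := (0 : ℝ)) (v := (1 : NNReal)) (S / 2), ?_⟩
    have h := congrFun (mgf_id_gaussianReal (μ := (0 : ℝ)) (v := (1 : NNReal))) (S / 2)
    simp only [mgf, id_eq, zero_mul, zero_add, NNReal.coe_one, one_mul] at h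
    simp only [mul_comm _ (S / 2)]
    rw [h]; congr 1; ring
  set S : (Fin n → Bool) → ℝ := fun η => ∑ i, (if η i then (1 : ℝ) else -1) * v i with hS
  have hinner : ∀ η, (n : ℝ) / 8 * ⟪signVec n η, v⟫ ^ 2 = S η ^ 2 / 8 := by
    intro η
    have : ⟪signVec n η, v⟫ = S η / Real.sqrt n := by
      simp only [signVec, PiLp.inner_apply, hS, Finset.sum_div, RCLike.inner_apply, conj_trivial]
      exact Finset.sum_congr rfl fun i _ => by ring
    rw [this, div_pow, Real.sq_sqrt hn'.le]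
    field_simp
  have hv2 : ∑ i, v i ^ 2 = 1 := by
    have := EuclideanSpace.norm_sq_eq v
    rw [hv] at this
    simpa [sq_abs] using this.symm
  have hcosh : ∀ x : ℝ, ∑ η : Fin n → Bool, Real.exp (x * (S η / 2)) ≤
      2 ^ n * Real.exp (x ^ 2 / 8) := by
    intro x
    have e1 : ∀ η : Fin n → Bool, Real.exp (x * (S η / 2)) =
        ∏ i, Real.exp (x / 2 * ((if η i then (1 : ℝ) else -1) * v i)) := fun η => by
      rw [← Real.exp_sum, ← Finset.mul_sum]; congr 1; ring
    simp only [e1]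
    rw [← Fintype.prod_sum fun i (b : Bool) => Real.exp (x / 2 * ((if b then (1 : ℝ) else -1) * v i))]
    calc ∏ i, ∑ b : Bool, Real.exp (x / 2 * ((if b then (1 : ℝ) else -1) * v i))
        ≤ ∏ i : Fin n, (2 * Real.exp ((x / 2 * v i) ^ 2 / 2)) := by
          refine Finset.prod_le_prod (fun i _ => Finset.sum_nonneg fun b _ => (Real.exp_pos _).le)
            fun i _ => ?_
          rw [Fintype.sum_bool]
          have := Real.cosh_le_exp_half_sq (x / 2 * v i)
          rw [Real.cosh_eq] at this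
          simp only [Bool.false_eq_true, if_true, if_false, one_mul, neg_mul, mul_neg]
          linarith
      _ = _ := by
          rw [Finset.prod_mul_distrib, Finset.prod_const, Finset.card_univ, Fintype.card_fin,
            ← Real.exp_sum]
          congr 2
          rw [Finset.sum_congr rfl fun i _ => show (x / 2 * v i) ^ 2 / 2 = x ^ 2 / 8 * v i ^ 2 by
            ring, ← Finset.mul_sum, hv2, mul_one]
  simp only [hinner, ← (key _).2]
  rw [← integral_finsetSum _ fun η _ => (key _).1, mgfA, ← integral_const_mul]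
  exact integral_mono (integrable_finsetSum _ fun η _ => (key _).1)
    (integrable_exp_sq.const_mul _) hcosh

end Vale.Agent.P163
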