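import Vale.Agent.P163.Shift

/-!
Logarithmic windows and the induction over them.
-/

noncomputable section

namespace Vale.Agent.P163

open MeasureTheory Metric
open scoped RealInnerProductSpace

variable {V : Type*} {n : ℕ}

/-- A distance to a site along the bonds, with quadratically growing balls. -/
structure Geo (E : Finset (V × V)) (d : V → ℕ) : Prop where
  lip : ∀ b ∈ E, d b.1 ≤ d b.2 + 1 ∧ d b.2 ≤ d b.1 + 1
  count : ∀ R : ℕ, 1 ≤ R → (E.filter fun b => d b.1 ≤ R).card ≤ 18 * R ^ 2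

/-- One dyadic ramp. -/
def shell (i : ℕ) (r : ℕ) : ℝ := max 0 (min 1 ((2 ^ (i + 1) - (r : ℝ)) / 2 ^ i))

theorem shell_one {i r : ℕ} (h : r ≤ 2 ^ i) : shell i r = 1 := by
  have h' : (r : ℝ) ≤ 2 ^ i := by exact_mod_cast h
  have : (1 : ℝ) ≤ (2 ^ (i + 1) - (r : ℝ)) / 2 ^ i := by
    rw [le_div_iff₀ (by positivity), one_mul, pow_succ]; linarith
  rw [shell, min_eq_left this, max_eq_right zero_le_one]

theorem shell_zero {i r : ℕ} (h : 2 ^ (i + 1) ≤ r) : shell i r = 0 := by
  have h' : (2 : ℝ) ^ (i + 1) ≤ r := by exact_mod_cast h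
  have : (2 ^ (i + 1) - (r : ℝ)) / 2 ^ i ≤ 0 :=
    div_nonpos_of_nonpos_of_nonneg (by linarith) (by positivity)
  exact max_eq_left ((min_le_right _ _).trans this)

theorem abs_shell_sub {i r s : ℕ} (h1 : r ≤ s + 1) (h2 : s ≤ r + 1) :
    |shell i r - shell i s| ≤ 1 / 2 ^ i := by
  set a : ℝ := (2 ^ (i + 1) - (r : ℝ)) / 2 ^ i
  set b : ℝ := (2 ^ (i + 1) - (s : ℝ)) / 2 ^ i
  have hab : |a - b| ≤ 1 / 2 ^ i := by
    rw [show a - b = ((s : ℝ) - r) / 2 ^ i by simp only [a, b]; ring, abs_div,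
      abs_of_pos (show (0 : ℝ) < 2 ^ i by positivity)]
    refine div_le_div_of_nonneg_right ?_ (by positivity)
    have e1 : (r : ℝ) ≤ s + 1 := by exact_mod_cast h1
    have e2 : (s : ℝ) ≤ r + 1 := by exact_mod_cast h2
    rw [abs_le]; constructor <;> linarith
  refine le_trans ?_ hab
  refine (abs_max_sub_max_le_max _ _ _ _).trans (max_le (by simp) ?_)
  exact (abs_min_sub_min_le_max _ _ _ _).trans (max_le (by simp) le_rfl)

theorem shell_band {i r s : ℕ} (h1 : r ≤ s + 1) (h2 : s ≤ r + 1)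
    (h : shell i r ≠ shell i s) :
    2 ^ i ≤ min r s ∧ min r s < 2 ^ (i + 1) ∧ r ≤ 2 ^ (i + 1) ∧ s ≤ 2 ^ (i + 1) := by
  have ha : ¬(r ≤ 2 ^ i ∧ s ≤ 2 ^ i) := fun hh => h (by rw [shell_one hh.1, shell_one hh.2])
  have hb : ¬(2 ^ (i + 1) ≤ r ∧ 2 ^ (i + 1) ≤ s) := fun hh =>
    h (by rw [shell_zero hh.1, shell_zero hh.2])
  omega

/-- The averaged ramp from `2^a` to `2^(a+L)`. -/
def prof (d : V → ℕ) (a L : ℕ) (x : V) : ℝ := (∑ i ∈ Finset.range L, shell (a + i) (d x)) / L

theorem prof_one {d : V → ℕ} {a L : ℕ} (hL : 1 ≤ L) {x : V} (h : d x ≤ 2 ^ a) :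
    prof d a L x = 1 := by
  have hL' : (L : ℝ) ≠ 0 := Nat.cast_ne_zero.2 (by omega)
  rw [prof, Finset.sum_congr rfl fun i _ => shell_one (h.trans (Nat.pow_le_pow_right two_pos
    (Nat.le_add_right a i)))]
  simp [hL']

theorem prof_zero {d : V → ℕ} {a L : ℕ} {x : V} (h : 2 ^ (a + L) ≤ d x) : prof d a L x = 0 := by
  rw [prof, Finset.sum_eq_zero fun i hi => shell_zero (le_trans (Nat.pow_le_pow_right two_pos
    (by rw [Finset.mem_range] at hi; omega)) h), zero_div]

variable {E : Finset (V × V)} {d : V → ℕ}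

theorem shell_unique (hG : Geo E d) {a i j : ℕ} {b : V × V} (hb : b ∈ E)
    (hi : shell (a + i) (d b.1) ≠ shell (a + i) (d b.2))
    (hj : shell (a + j) (d b.1) ≠ shell (a + j) (d b.2)) : i = j := by
  obtain ⟨i1, i2, -, -⟩ := shell_band (hG.lip b hb).1 (hG.lip b hb).2 hi
  obtain ⟨j1, j2, -, -⟩ := shell_band (hG.lip b hb).1 (hG.lip b hb).2 hj
  rcases lt_trichotomy i j with h | h | h
  · have := Nat.pow_le_pow_right two_pos (show a + i + 1 ≤ a + j by omega); omega
  · exact h
  · have := Nat.pow_le_pow_right two_pos (show a + j + 1 ≤ a + i by omega); omega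

/-- A sum with one non-zero term. -/
theorem sq_sum_single {ι : Type*} (s : Finset ι) (δ : ι → ℝ)
    (h : ∀ i ∈ s, ∀ j ∈ s, δ i ≠ 0 → δ j ≠ 0 → i = j) :
    (∑ i ∈ s, δ i) ^ 2 = ∑ i ∈ s, δ i ^ 2 := by
  classical
  by_cases hz : ∃ i ∈ s, δ i ≠ 0
  · obtain ⟨i, hi, hi0⟩ := hz
    have hrest : ∀ j ∈ s, j ≠ i → δ j = 0 := fun j hj hji => by
      by_contra h0; exact hji (h j hj i hi h0 hi0)
    rw [Finset.sum_eq_single_of_mem i hi hrest,
      Finset.sum_eq_single_of_mem i hi fun j hj hji => by simp [hrest j hj hji]]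
  · push Not at hz
    simp +contextual [Finset.sum_eq_zero hz, hz]

theorem prof_grad (hG : Geo E d) (a L : ℕ) :
    ∑ b ∈ E, (prof d a L b.1 - prof d a L b.2) ^ 2 ≤ 72 / L := by
  rcases Nat.eq_zero_or_pos L with rfl | hL
  · simp [prof]
  have hL' : (0 : ℝ) < L := by exact_mod_cast hL
  set δ : ℕ → V × V → ℝ := fun i b => shell (a + i) (d b.1) - shell (a + i) (d b.2)
  have e : ∀ b ∈ E, (prof d a L b.1 - prof d a L b.2) ^ 2 =
      (∑ i ∈ Finset.range L, δ i b ^ 2) / (L : ℝ) ^ 2 := by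
    intro b hb
    rw [prof, prof, ← sub_div, ← Finset.sum_sub_distrib, div_pow,
      sq_sum_single _ _ fun i _ j _ hi hj => shell_unique hG hb (sub_ne_zero.1 hi)
        (sub_ne_zero.1 hj)]
  rw [Finset.sum_congr rfl e, ← Finset.sum_div, Finset.sum_comm]
  have hone : ∀ i ∈ Finset.range L, ∑ b ∈ E, δ i b ^ 2 ≤ 72 := by
    intro i _
    calc ∑ b ∈ E, δ i b ^ 2
        ≤ ∑ b ∈ E.filter (fun b => d b.1 ≤ 2 ^ (a + i + 1)), (1 / 2 ^ (a + i) : ℝ) ^ 2 := by
          rw [Finset.sum_filter]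
          refine Finset.sum_le_sum fun b hb => ?_
          by_cases h0 : δ i b = 0
          · rw [h0, zero_pow two_ne_zero]; split <;> positivity
          · rw [if_pos (shell_band (hG.lip b hb).1 (hG.lip b hb).2 (sub_ne_zero.1 h0)).2.2.1,
              ← sq_abs]
            exact pow_le_pow_left₀ (abs_nonneg _) (abs_shell_sub (hG.lip b hb).1 (hG.lip b hb).2) 2
      _ ≤ (18 * (2 ^ (a + i + 1)) ^ 2 : ℕ) * (1 / 2 ^ (a + i) : ℝ) ^ 2 := by
          rw [Finset.sum_const, nsmul_eq_mul]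
          exact mul_le_mul_of_nonneg_right
            (Nat.cast_le.2 (hG.count _ Nat.one_le_two_pow)) (sq_nonneg _)
      _ = 72 := by push_cast; rw [pow_succ]; field_simp; ring
  calc (∑ i ∈ Finset.range L, ∑ b ∈ E, δ i b ^ 2) / (L : ℝ) ^ 2
      ≤ (∑ _i ∈ Finset.range L, (72 : ℝ)) / (L : ℝ) ^ 2 :=
        div_le_div_of_nonneg_right (Finset.sum_le_sum hone) (by positivity)
    _ = 72 / L := by simp; field_simp

theorem prof_band (hG : Geo E d) {a L : ℕ} {b : V × V} (hb : b ∈ E)
    (h : prof d a L b.1 ≠ prof d a L b.2) :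
    (2 ^ a ≤ d b.1 ∧ d b.1 ≤ 2 ^ (a + L)) ∧ 2 ^ a ≤ d b.2 ∧ d b.2 ≤ 2 ^ (a + L) := by
  obtain ⟨i, hi, hne⟩ : ∃ i ∈ Finset.range L,
      shell (a + i) (d b.1) ≠ shell (a + i) (d b.2) := by
    by_contra hcon
    push Not at hcon
    exact h (by rw [prof, prof, Finset.sum_congr rfl hcon])
  rw [Finset.mem_range] at hi
  obtain ⟨h1, -, h3, h4⟩ := shell_band (hG.lip b hb).1 (hG.lip b hb).2 hne
  have e1 := Nat.pow_le_pow_right two_pos (show a ≤ a + i by omega)
  have e2 := Nat.pow_le_pow_right two_pos (show a + i + 1 ≤ a + L by omega)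
  omega

theorem abs_prof_sub (hG : Geo E d) {a L : ℕ} {b : V × V} (hb : b ∈ E) :
    |prof d a L b.1 - prof d a L b.2| ≤ 1 := by
  rcases Nat.eq_zero_or_pos L with rfl | hL
  · simp [prof]
  rw [prof, prof, ← sub_div, ← Finset.sum_sub_distrib, abs_div, Nat.abs_cast,
    div_le_one (Nat.cast_pos.2 hL)]
  refine (Finset.abs_sum_le_sum_abs _ _).trans ?_
  calc ∑ i ∈ Finset.range L, |shell (a + i) (d b.1) - shell (a + i) (d b.2)|
      ≤ ∑ _i ∈ Finset.range L, (1 : ℝ) := Finset.sum_le_sum fun i _ =>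
        (abs_shell_sub (hG.lip b hb).1 (hG.lip b hb).2).trans
          (div_le_one_of_le₀ (one_le_pow₀ one_le_two) (by positivity))
    _ = L := by simp

variable [Fintype V] [DecidableEq V]

theorem nodeW_band (hG : Geo E d) {a L : ℕ} {c : ℝ} {x : V}
    (h : nodeW E (fun v => c * prof d a L v) x ≠ 0) : 2 ^ a ≤ d x ∧ d x ≤ 2 ^ (a + L) := by
  obtain ⟨b, hb, hne⟩ := Finset.exists_ne_zero_of_sum_ne_zero h
  have hp : prof d a L b.1 ≠ prof d a L b.2 := by
    intro heq; simp [heq] at hne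
  obtain ⟨h1, h2⟩ := prof_band hG hb hp
  by_cases hx1 : b.1 = x
  · exact hx1 ▸ h1
  by_cases hx2 : b.2 = x
  · exact hx2 ▸ h2
  simp [hx1, hx2] at hne

theorem sum_nodeW_le (hG : Geo E d) (a L : ℕ) (c : ℝ) :
    ∑ x, nodeW E (fun v => c * prof d a L v) x ≤ c ^ 2 * (144 / L) := by
  rw [sum_nodeW]
  simp only [← mul_sub, mul_pow, ← Finset.mul_sum]
  calc 2 * (c ^ 2 * ∑ b ∈ E, (prof d a L b.1 - prof d a L b.2) ^ 2) ≤ 2 * (c ^ 2 * (72 / L)) := by
        gcongr; exact prof_grad hG a L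
    _ = _ := by ring

/-- The upper dyadic level of window `k`. -/
def top (M L k : ℕ) : ℕ := M - 2 * L * k

/-- The `k`th window. -/
def win (d : V → ℕ) (M L k : ℕ) (x : V) : ℝ := prof d (top M L k - L) L x

/-- The exponent collected in the first `k` windows. -/
def wexp (β g : ℝ) (E : Finset (V × V)) (d : V → ℕ) (P : Plane n) (M L k : ℕ)
    (σ : V → Spin n) : ℝ :=
  β / 2 * ∑ j ∈ Finset.range k, ∑ x, nodeW E (fun v => g * win d M L j v) x * P.proj (σ x)

/-- The statement propagated along the windows. -/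
def Small (β g : ℝ) (E : Finset (V × V)) (d : V → ℕ) (P : Plane n) (M L k : ℕ) : Prop :=
  ∀ x, d x ≤ 2 ^ top M L k → ∀ e : Euc n, ⟪e, e⟫ = 1 →
    Ex β E (fun σ => Real.exp (wexp β g E d P M L k σ) *
      Real.exp ((n : ℝ) / 16 * ⟪e, (σ x : Euc n)⟫ ^ 2)) ≤
      mgfA * Ex β E fun σ => Real.exp (wexp β g E d P M L k σ)

theorem continuous_wexp (β g : ℝ) (P : Plane n) (M L k : ℕ) :
    Continuous (wexp β g E d P M L k) := by
  unfold wexp Plane.proj; fun_prop

/-- Adding weights supported below the current level. -/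
theorem small_weights [NeZero n] {β g : ℝ} {P : Plane n} {M L k : ℕ}
    (hS : Small β g E d P M L k) (P' : Plane n) (w w' : V → ℝ)
    (hw : ∀ x, 0 ≤ w x) (hw' : ∀ x, 0 ≤ w' x)
    (hs : ∀ x, w x ≠ 0 → d x ≤ 2 ^ top M L k) (hs' : ∀ x, w' x ≠ 0 → d x ≤ 2 ^ top M L k)
    (hsum : 2 * ∑ x, (w x + w' x) ≤ (n : ℝ) / 16) :
    Ex β E (fun σ => Real.exp (wexp β g E d P M L k σ) *
      Real.exp (∑ x, w x * P.proj (σ x) + ∑ x, w' x * P'.proj (σ x))) ≤
      (1 + 2 * (∑ x, (w x + w' x)) / ((n : ℝ) / 16) * (mgfA - 1)) *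
        Ex β E fun σ => Real.exp (wexp β g E d P M L k σ) := by
  have hn : (0 : ℝ) < n := Nat.cast_pos.2 (Nat.pos_of_ne_zero (NeZero.ne n))
  let vec : Bool × Bool → Euc n := fun q =>
    bif q.1 then (bif q.2 then P'.f else P'.e) else (bif q.2 then P.f else P.e)
  have hvec : ∀ q, ⟪vec q, vec q⟫ = 1 := by
    rintro ⟨a, b⟩; cases a <;> cases b <;> simp only [vec, cond_true, cond_false] <;>
      first | exact P.he | exact P.hf | exact P'.he | exact P'.hf
  let wt : V × (Bool × Bool) → ℝ := fun i => bif i.2.1 then w' i.1 else w i.1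
  have hwt : ∑ i, wt i = 2 * ∑ x, (w x + w' x) := by
    rw [Fintype.sum_prod_type, Finset.mul_sum]
    refine Finset.sum_congr rfl fun x _ => ?_
    simp [Fintype.sum_prod_type, wt]; ring
  have h := convex_step (β := β) (E := E) (h := fun σ => Real.exp (wexp β g E d P M L k σ))
    (Real.continuous_exp.comp (continuous_wexp β g P M L k)) (fun σ => (Real.exp_pos _).le)
    (n0 := (n : ℝ) / 16) (K := mgfA) (by positivity) wt
    (fun i => by simp only [wt]; cases i.2.1 <;> simp [hw, hw'])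
    (by rw [hwt]; exact hsum) (fun i σ => ⟪vec i.2, (σ i.1 : Euc n)⟫ ^ 2)
    (fun i => by fun_prop) (fun i hi => hS i.1 (by
      simp only [wt] at hi
      cases hb : i.2.1 <;> simp only [hb, cond_true, cond_false] at hi
      · exact hs _ hi
      · exact hs' _ hi) _ (hvec i.2))
  rw [hwt] at h
  refine le_trans (le_of_eq ?_) h
  congr 1
  funext σ
  congr 2
  rw [Fintype.sum_prod_type, ← Finset.sum_add_distrib]
  refine Finset.sum_congr rfl fun x _ => ?_
  simp [Fintype.sum_prod_type, wt, vec, Plane.proj]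
  ring

theorem weight_bound {L : ℕ} {β c : ℝ} (hn : 0 < n) (hL : 80000 * β / n < L) (hβ : 0 ≤ β)
    (hc : c ≤ 17) (hc0 : 0 ≤ c) :
    2 * (β / 2 * (c * (144 / L))) / ((n : ℝ) / 16) ≤ c / 34 := by
  have hn' : (0 : ℝ) < n := by exact_mod_cast hn
  have hL0 : (0 : ℝ) < L := lt_of_le_of_lt (by positivity) hL
  rw [div_lt_iff₀ hn'] at hL
  rw [div_le_div_iff₀ (by positivity) (by norm_num)]
  field_simp
  nlinarith [mul_le_mul_of_nonneg_left hL.le hc0]

theorem small_zero [NeZero n] (hn : 2 ≤ n) {β g : ℝ} (hβ : 0 ≤ β) (P : Plane n) (M L : ℕ) :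
    Small β g E d P M L 0 := by
  intro x _ e he
  have h0 : ∀ σ : V → Spin n, wexp β g E d P M L 0 σ = 0 := fun σ => by simp [wexp]
  simp only [h0, Real.exp_zero]
  have hA := one_le_mgfA
  have hp := (Ex_one_pos (n := n) β E).le
  refine (average_step (h := fun _ : V → Spin n => (1 : ℝ)) hn hβ (fun _ => 1) x rfl
    continuous_const (fun _ => zero_le_one)
    (fun _ _ _ => rfl) (M := Ex (n := n) β E fun _ => 1) (fun P θ _ => ?_) e he).trans ?_
  · refine le_of_eq ?_
    congr 1; funext σ; simp [nodeW]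
  · nlinarith

theorem wexp_succ (β g : ℝ) (P : Plane n) (M L k : ℕ) (σ : V → Spin n) :
    wexp β g E d P M L (k + 1) σ = wexp β g E d P M L k σ +
      ∑ x, (β / 2 * nodeW E (fun v => g * win d M L k v) x) * P.proj (σ x) := by
  simp only [wexp, Finset.sum_range_succ, mul_add, Finset.mul_sum]
  congr 1
  exact Finset.sum_congr rfl fun x _ => by ring

/-- One step of the induction along the windows. -/
theorem small_succ [NeZero n] (hn : 2 ≤ n) {β g : ℝ} (hβ : 0 ≤ β) (hg : g ^ 2 ≤ 1) (hG : Geo E d)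
    {P : Plane n} {M L k : ℕ} (hL : 80000 * β / n < L) (hk : 2 * L * (k + 1) ≤ M)
    (hS : Small β g E d P M L k) : Small β g E d P M L (k + 1) := by
  have hn' : (0 : ℝ) < n := by exact_mod_cast (by omega : 0 < n)
  have hL1 : 1 ≤ L := by
    have : (0 : ℝ) < L := lt_of_le_of_lt (by positivity) hL
    exact_mod_cast this
  have hmul : 2 * L * (k + 1) = 2 * L * k + 2 * L := by ring
  have htop : top M L (k + 1) + L + L = top M L k := by simp only [top]; omega
  intro x hx e he
  set φ : V → ℝ := prof d (top M L (k + 1)) L with hφ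
  set h : (V → Spin n) → ℝ := fun σ => Real.exp (wexp β g E d P M L (k + 1) σ) with hh
  have hhc : Continuous h := Real.continuous_exp.comp (continuous_wexp β g P M L (k + 1))
  have hinv : ∀ (Q : Plane n) (t : ℝ) σ, h (rotF Q (fun z => t * φ z) σ) = h σ := by
    intro Q t σ
    simp only [hh, wexp]
    congr 2
    refine Finset.sum_congr rfl fun j hj => Finset.sum_congr rfl fun v _ => ?_
    by_cases hv : nodeW E (fun z => g * win d M L j z) v = 0
    · simp [hv]
    · have hb := (nodeW_band hG hv).1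
      have hj' : j ≤ k := Nat.lt_succ_iff.1 (Finset.mem_range.1 hj)
      have hjk : top M L k ≤ top M L j := by
        simp only [top]
        have := Nat.mul_le_mul_left (2 * L) hj'
        omega
      have hφ0 : φ v = 0 := prof_zero (le_trans (Nat.pow_le_pow_right two_pos
        (show top M L (k + 1) + L ≤ top M L j - L by omega)) hb)
      rw [rotF_coe, hφ0, mul_zero, Q.rot_zero]
  set I := Ex β E h with hI
  have hI0 : 0 ≤ I := Ex_nonneg fun σ => (Real.exp_pos _).le
  have hmono : Ex β E (fun σ => Real.exp (wexp β g E d P M L k σ)) ≤ I := by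
    refine Ex_mono (Real.continuous_exp.comp (continuous_wexp β g P M L k)) hhc fun σ =>
      Real.exp_le_exp.2 ?_
    rw [wexp_succ]
    exact le_add_of_nonneg_right (Finset.sum_nonneg fun v _ => mul_nonneg
      (mul_nonneg (by positivity) (nodeW_nonneg _ _ _)) (by unfold Plane.proj; positivity))
  have hA := one_le_mgfA
  refine (average_step hn hβ φ x (prof_one hL1 hx) hhc (fun σ => (Real.exp_pos _).le) hinv
    (M := (1 + 1 / 2 * (mgfA - 1)) * I) (fun Q θ hθ => ?_) e he).trans ?_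
  · have hsup : ∀ (c : ℝ) (a : ℕ), a + L ≤ top M L k → ∀ v,
        β / 2 * nodeW E (fun z => c * prof d a L z) v ≠ 0 → d v ≤ 2 ^ top M L k :=
      fun c a ha v hv => (nodeW_band hG (right_ne_zero_of_mul hv)).2.trans
        (Nat.pow_le_pow_right two_pos ha)
    have hsum : ∑ v, (β / 2 * nodeW E (fun z => g * win d M L k z) v +
        β / 2 * nodeW E (fun z => θ * φ z) v) ≤ β / 2 * ((g ^ 2 + θ ^ 2) * (144 / L)) := by
      rw [Finset.sum_add_distrib, ← Finset.mul_sum, ← Finset.mul_sum, ← mul_add, add_mul]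
      refine mul_le_mul_of_nonneg_left (add_le_add ?_ ?_) (by positivity)
      · exact sum_nodeW_le hG _ _ g
      · exact sum_nodeW_le hG _ _ θ
    have hθ2 : θ ^ 2 ≤ 16 := by
      rw [← sq_abs]; nlinarith [Real.pi_lt_four, abs_nonneg θ, Real.pi_pos]
    have hb := weight_bound (c := g ^ 2 + θ ^ 2) (n := n) (by omega) hL hβ (by linarith)
      (by positivity)
    have hfrac : 2 * (∑ v, (β / 2 * nodeW E (fun z => g * win d M L k z) v +
        β / 2 * nodeW E (fun z => θ * φ z) v)) / ((n : ℝ) / 16) ≤ 1 / 2 := by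
      refine (div_le_div_of_nonneg_right (by linarith [hsum]) (by positivity)).trans
        (hb.trans ?_)
      linarith
    have h := small_weights hS Q (fun v => β / 2 * nodeW E (fun z => g * win d M L k z) v)
      (fun v => β / 2 * nodeW E (fun z => θ * φ z) v)
      (fun v => mul_nonneg (by positivity) (nodeW_nonneg _ _ _))
      (fun v => mul_nonneg (by positivity) (nodeW_nonneg _ _ _))
      (hsup g (top M L k - L) (by omega)) (hsup θ (top M L (k + 1)) (by omega)) (by
        rw [div_le_iff₀ (by positivity)] at hfrac; linarith)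
    refine le_trans (le_of_eq ?_) (h.trans ?_)
    · congr 1; funext σ
      simp only [hh, wexp_succ, Real.exp_add, Finset.mul_sum, mul_assoc]
    · calc _ ≤ (1 + 1 / 2 * (mgfA - 1)) * Ex β E (fun σ => Real.exp (wexp β g E d P M L k σ)) :=
            mul_le_mul_of_nonneg_right (add_le_add le_rfl
              (mul_le_mul_of_nonneg_right hfrac (by linarith)))
              (Ex_nonneg fun σ => (Real.exp_pos _).le)
        _ ≤ _ := mul_le_mul_of_nonneg_left hmono (by linarith)
  · nlinarith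

/-- The cost of all the windows. -/
theorem windows_cost [NeZero n] (hn : 2 ≤ n) {β g : ℝ} (hβ : 0 ≤ β) (hg : g ^ 2 ≤ 1) (hG : Geo E d)
    (P : Plane n) {M L : ℕ} (hL : 80000 * β / n < L) :
    ∀ m, 2 * L * m ≤ M → Small β g E d P M L m ∧
      Ex β E (fun σ => Real.exp (wexp β g E d P M L m σ)) ≤
        Real.exp (g ^ 2 * mgfA / 2 * m) * Ex (n := n) β E fun _ => 1 := by
  intro m
  induction m with
  | zero => exact fun _ => ⟨small_zero hn hβ P M L, le_of_eq (by simp [wexp])⟩
  | succ m ih =>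
    intro hm
    have hm' : 2 * L * m ≤ M := le_trans (Nat.mul_le_mul_left _ (Nat.le_succ m)) hm
    obtain ⟨hS, hcost⟩ := ih hm'
    refine ⟨small_succ hn hβ hg hG hL hm hS, ?_⟩
    have hn' : (0 : ℝ) < n := by exact_mod_cast (by omega : 0 < n)
    have hA := one_le_mgfA
    have hb := weight_bound (c := g ^ 2) (n := n) (by omega) hL hβ (by linarith) (sq_nonneg g)
    have hsum : ∑ v, (β / 2 * nodeW E (fun z => g * win d M L m z) v + 0) ≤
        β / 2 * (g ^ 2 * (144 / L)) := by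
      simp only [add_zero, ← Finset.mul_sum]
      exact mul_le_mul_of_nonneg_left (sum_nodeW_le hG _ _ g) (by positivity)
    have hfrac : 2 * ∑ v, (β / 2 * nodeW E (fun z => g * win d M L m z) v + 0) / ((n : ℝ) / 16) ≤
        g ^ 2 / 2 := by
      rw [← Finset.sum_div, ← mul_div_assoc]
      refine (div_le_div_of_nonneg_right (by linarith [hsum]) (by positivity)).trans
        (hb.trans ?_)
      linarith [sq_nonneg g]
    rw [← Finset.sum_div, ← mul_div_assoc] at hfrac
    have h := small_weights hS P (fun v => β / 2 * nodeW E (fun z => g * win d M L m z) v)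
      (fun _ => 0) (fun v => mul_nonneg (by positivity) (nodeW_nonneg _ _ _)) (fun _ => le_rfl)
      (fun v hv => (nodeW_band hG (right_ne_zero_of_mul hv)).2.trans (Nat.pow_le_pow_right two_pos
        (by simp only [top]; have : 2 * L * (m + 1) = 2 * L * m + 2 * L := by ring
            omega)))
      (fun v hv => absurd rfl hv) (by rw [div_le_iff₀ (by positivity)] at hfrac; nlinarith)
    refine le_trans (le_of_eq ?_) (h.trans ?_)
    · congr 1; funext σ
      simp [wexp_succ, Real.exp_add]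
    · calc _ ≤ Real.exp (g ^ 2 * mgfA / 2) *
            Ex β E (fun σ => Real.exp (wexp β g E d P M L m σ)) := by
            refine mul_le_mul_of_nonneg_right ?_ (Ex_nonneg fun σ => (Real.exp_pos _).le)
            refine le_trans ?_ (Real.add_one_le_exp _)
            nlinarith [mul_le_mul_of_nonneg_right hfrac (show (0:ℝ) ≤ mgfA - 1 by linarith)]
        _ ≤ Real.exp (g ^ 2 * mgfA / 2) * (Real.exp (g ^ 2 * mgfA / 2 * m) *
            Ex (n := n) β E fun _ => 1) := mul_le_mul_of_nonneg_left hcost (Real.exp_pos _).le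
        _ = _ := by rw [← mul_assoc, ← Real.exp_add]; congr 2; push_cast; ring

end Vale.Agent.P163
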